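import Vale.Agent.P092.H943.ProdC

/-!
P092 (helper943), [P-END]: the joint calculus on `C₀` of a finite product.
-/

set_option linter.all false

namespace Vale.Agent.P092.H943

open Topology TopologicalSpace Filter Set
open scoped InnerProductSpace ComplexConjugate ZeroAtInfty
open Vale.Agent.P092.H171 (ext ext_apply ext_zero ext_surj)

section emb

variable {ι : Type*} [Finite ι] {X : ι → Type*} [∀ i, TopologicalSpace (X i)]

/-- the product of the open embeddings `X i → OnePoint (X i)` -/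
def cc (x : ∀ i, X i) : ∀ i, OnePoint (X i) := fun i => (x i : OnePoint (X i))

theorem isOpenEmbedding_cc : IsOpenEmbedding (cc : (∀ i, X i) → ∀ i, OnePoint (X i)) := by
  have h1 : ∀ i, IsOpenEmbedding (fun x : X i => (x : OnePoint (X i))) :=
    fun i => OnePoint.isOpenEmbedding_coe
  refine ⟨IsEmbedding.piMap fun i => (h1 i).isEmbedding, ?_⟩
  have e : range (cc : (∀ i, X i) → ∀ i, OnePoint (X i)) =
      Set.pi univ fun i => range (fun x : X i => (x : OnePoint (X i))) := by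
    ext z
    simp only [mem_range, Set.mem_pi, mem_univ, true_implies]
    constructor
    · rintro ⟨x, rfl⟩ i
      exact ⟨x i, rfl⟩
    · intro h
      choose x hx using h
      exact ⟨x, funext hx⟩
  rw [e]
  exact isOpen_set_pi (Set.toFinite _) fun i _ => (h1 i).isOpen_range

theorem mem_range_cc {z : ∀ i, OnePoint (X i)} :
    z ∈ range (cc : (∀ i, X i) → ∀ i, OnePoint (X i)) ↔ ∀ i, z i ≠ OnePoint.infty := by
  constructor
  · rintro ⟨x, rfl⟩ i
    exact OnePoint.coe_ne_infty _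
  · intro h
    choose x hx using fun i => OnePoint.ne_infty_iff_exists.1 (h i)
    exact ⟨x, funext hx⟩

end emb

section one

variable {X : Type*} [TopologicalSpace X] [T2Space X] [WeaklyLocallyCompactSpace X]

/-- extension by zero to the one point compactification -/
noncomputable def ez : C₀(X, ℂ) →⋆ₙₐ[ℂ] C(OnePoint X, ℂ) :=
  ext (OnePoint.isOpenEmbedding_coe (X := X))

@[simp] theorem ez_coe (ψ : C₀(X, ℂ)) (x : X) : ez ψ (x : OnePoint X) = ψ x := ext_apply _ _ _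

@[simp] theorem ez_infty (ψ : C₀(X, ℂ)) : ez ψ OnePoint.infty = 0 :=
  ext_zero _ _ (by rintro ⟨x, hx⟩; exact OnePoint.coe_ne_infty x hx)

theorem res_ez (ψ : C₀(X, ℂ)) : res (ez ψ) = ψ := by
  ext x
  simp

variable {A : Type*} [Ring A] [StarRing A] [Algebra ℂ A] [StarModule ℂ A]

theorem uext_ez (Q : C₀(X, ℂ) →⋆ₙₐ[ℂ] A) (ψ : C₀(X, ℂ)) : uext Q (ez ψ) = Q ψ := by
  rw [uext_apply, res_ez, ez_infty, map_zero, zero_add]

end one

section pi

variable {ι : Type*} {X : ι → Type*} [∀ i, TopologicalSpace (X i)]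
  [∀ i, T2Space (X i)] [∀ i, WeaklyLocallyCompactSpace (X i)]
  {K : Type*} [NormedAddCommGroup K] [InnerProductSpace ℂ K] [CompleteSpace K]

theorem uext_comm {Y Z : Type*} [TopologicalSpace Y] [T2Space Y] [TopologicalSpace Z] [T2Space Z]
    {Q : C₀(Y, ℂ) →⋆ₙₐ[ℂ] (K →L[ℂ] K)} {R : C₀(Z, ℂ) →⋆ₙₐ[ℂ] (K →L[ℂ] K)}
    (h : ∀ ψ φ, Commute (Q ψ) (R φ)) (f : C(OnePoint Y, ℂ)) (g : C(OnePoint Z, ℂ)) :
    Commute (uext Q f) (uext R g) := by
  rw [uext_apply, uext_apply]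
  refine Commute.add_left ?_ ?_
  · exact Algebra.commutes _ _
  · exact Commute.add_right (Algebra.commutes _ _).symm (h _ _)

theorem uext_comm' {Y : Type*} [TopologicalSpace Y] [T2Space Y]
    {Q : C₀(Y, ℂ) →⋆ₙₐ[ℂ] (K →L[ℂ] K)} {T : K →L[ℂ] K}
    (h : ∀ ψ, Commute T (Q ψ)) (f : C(OnePoint Y, ℂ)) : Commute T (uext Q f) := by
  rw [uext_apply]
  exact Commute.add_right (Algebra.commutes _ _).symm (h _)

/-- the joint calculus on the product of the one point compactifications -/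
theorem exists_PP (Q : ∀ i, C₀(X i, ℂ) →⋆ₙₐ[ℂ] (K →L[ℂ] K))
    (hc : ∀ i j, i ≠ j → ∀ ψ φ, Commute (Q i ψ) (Q j φ)) :
    ∃ Φ : C(∀ i, OnePoint (X i), ℂ) →⋆ₐ[ℂ] (K →L[ℂ] K), ∀ i f, Φ (cof i f) = uext (Q i) f := by
  refine exists_joint (fun i => uext (Q i)) fun i j f g => ?_
  refine uext_comm (fun ψ φ => ?_) f g
  by_cases hij : i = j
  · subst hij
    rw [Commute, SemiconjBy, ← map_mul, ← map_mul, mul_comm]
  · exact hc i j hij ψ φ

/-- **nondegeneracy** of the joint calculus -/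
theorem exists_ne [Fintype ι] (Q : ∀ i, C₀(X i, ℂ) →⋆ₙₐ[ℂ] (K →L[ℂ] K))
    (nd : ∀ i ξ, (∀ ψ, Q i ψ ξ = 0) → ξ = 0)
    {Φ : C(∀ i, OnePoint (X i), ℂ) →⋆ₐ[ℂ] (K →L[ℂ] K)} (hΦ : ∀ i f, Φ (cof i f) = uext (Q i) f)
    {ξ : K} (hξ : ξ ≠ 0) : ∃ ψ : ∀ i, C₀(X i, ℂ), Φ (∏ i, cof i (ez (ψ i))) ξ ≠ 0 := by
  classical
  have key : ∀ s : Finset ι, ∃ ψ : ∀ i, C₀(X i, ℂ), Φ (∏ i ∈ s, cof i (ez (ψ i))) ξ ≠ 0 := by
    intro s
    induction s using Finset.induction_on with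
    | empty => exact ⟨fun _ => 0, by simpa using hξ⟩
    | insert j s hj ih =>
      obtain ⟨ψ, hψ⟩ := ih
      have h1 : ∃ χ, Q j χ (Φ (∏ i ∈ s, cof i (ez (ψ i))) ξ) ≠ 0 := by
        by_contra hcon
        push Not at hcon
        exact hψ (nd j _ hcon)
      obtain ⟨χ, hχ⟩ := h1
      refine ⟨Function.update ψ j χ, ?_⟩
      rw [Finset.prod_insert hj, map_mul, hΦ, Function.update_self, uext_ez]
      have h2 : ∏ i ∈ s, cof i (ez (Function.update ψ j χ i)) = ∏ i ∈ s, cof i (ez (ψ i)) := by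
        refine Finset.prod_congr rfl fun i hi => ?_
        rw [Function.update_of_ne (by rintro rfl; exact hj hi)]
      rw [h2]
      exact hχ
  exact key Finset.univ

/-- **the joint calculus on `C₀` of a finite product**: nondegenerate, in the bicommutant of the
factors, and covariant under products of homeomorphisms. -/
theorem exists_pi [Fintype ι] (Q : ∀ i, C₀(X i, ℂ) →⋆ₙₐ[ℂ] (K →L[ℂ] K))
    (nd : ∀ i ξ, (∀ ψ, Q i ψ ξ = 0) → ξ = 0)
    (hc : ∀ i j, i ≠ j → ∀ ψ φ, Commute (Q i ψ) (Q j φ)) :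
    ∃ QQ : C₀(∀ i, X i, ℂ) →⋆ₙₐ[ℂ] (K →L[ℂ] K),
      (∀ ξ, (∀ Ψ, QQ Ψ ξ = 0) → ξ = 0) ∧
      (∀ T : K →L[ℂ] K, (∀ i ψ, Commute T (Q i ψ)) → ∀ Ψ, Commute T (QQ Ψ)) ∧
      (∀ (h : ∀ i, X i ≃ₜ X i) (U V : K →L[ℂ] K), U * V = 1 → V * U = 1 →
        (∀ i (ψ ψ' : C₀(X i, ℂ)), (∀ x, ψ' x = ψ (h i x)) → U * Q i ψ * V = Q i ψ') →
        ∀ Ψ Ψ' : C₀(∀ i, X i, ℂ), (∀ x, Ψ' x = Ψ fun i => h i (x i)) → U * QQ Ψ * V = QQ Ψ') := by
  obtain ⟨Φ, hΦ⟩ := exists_PP Q hc
  have hcc := isOpenEmbedding_cc (ι := ι) (X := X)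
  refine ⟨(Φ : C(∀ i, OnePoint (X i), ℂ) →⋆ₙₐ[ℂ] (K →L[ℂ] K)).comp (ext hcc), ?_, ?_, ?_⟩
  · intro ξ h0
    by_contra hξ
    obtain ⟨ψ, hψ⟩ := exists_ne Q nd hΦ hξ
    obtain ⟨Ψ, hΨ⟩ := ext_surj hcc (∏ i, cof i (ez (ψ i))) (by
      intro z hz
      rw [mem_range_cc] at hz
      push Not at hz
      obtain ⟨i, hi⟩ := hz
      rw [ContinuousMap.prod_apply]
      refine Finset.prod_eq_zero (Finset.mem_univ i) ?_
      rw [cof_apply, hi, ez_infty])
    apply hψ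
    rw [← hΨ]
    exact h0 Ψ
  · intro T hT Ψ
    refine comm_all Φ (fun i f => ?_) _
    rw [hΦ]
    exact uext_comm' (hT i) f
  · intro h U V hUV hVU hQ Ψ Ψ' hΨ
    let g : C(∀ i, OnePoint (X i), ∀ i, OnePoint (X i)) :=
      ⟨fun z i => (h i).onePointCongr (z i), by
        refine continuous_pi fun i => ?_
        exact (h i).onePointCongr.continuous.comp (continuous_apply i)⟩
    have hg : ∀ z i, g z i = (h i).onePointCongr (z i) := fun _ _ => rfl
    have h1 := conj_eq Φ Φ g hUV hVU (fun i f => by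
      have e : (cof i f).comp g = cof i (f.comp ((h i).onePointCongr : C(_, _))) := rfl
      rw [e, hΦ, hΦ, uext_apply, uext_apply, mul_add, add_mul]
      congr 1
      · rw [Algebra.algebraMap_eq_smul_one, mul_smul_comm, mul_one, smul_mul_assoc, hUV,
          Algebra.algebraMap_eq_smul_one]
        rfl
      · refine hQ i _ _ fun x => ?_
        rfl) (ext hcc Ψ)
    have h2 : (ext hcc Ψ).comp g = ext hcc Ψ' := by
      ext z
      by_cases hz : z ∈ range (cc : (∀ i, X i) → ∀ i, OnePoint (X i))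
      · obtain ⟨x, rfl⟩ := hz
        rw [ext_apply, hΨ]
        exact ext_apply hcc Ψ (fun i => h i (x i))
      · rw [ext_zero hcc _ hz]
        refine ext_zero hcc _ ?_
        rw [mem_range_cc] at hz ⊢
        push Not at hz ⊢
        obtain ⟨i, hi⟩ := hz
        refine ⟨i, ?_⟩
        rw [hg, hi]
        rfl
    rw [h2] at h1
    exact h1

end pi

end Vale.Agent.P092.H943
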