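import Vale.Agent.P092.H264.EndC
import Vale.Agent.P092.H943.ProdD

/-!
P092 (helper943), [P-END]: the legs of a product. A family of commuting calculi `Q i` of
`C₀(G i)` (one for each factor of the target) gives a classical leg `H264.Cl.CLeg` with target
`Π i, G i`; two families, all members of the first commuting with all members of the second, give
the monomial vector.
-/

set_option linter.all false

namespace Vale.Agent.P092.H943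

open Topology TopologicalSpace Filter Set MeasureTheory
open scoped InnerProductSpace ComplexConjugate ZeroAtInfty
open Vale.Agent.P092.RC (Cm)
open Vale.Agent.P092.H264.Cl (CLeg)

section leg

variable {E Γ K : Type} [Group E] [Group Γ] [NormedAddCommGroup K] [InnerProductSpace ℂ K]
  [CompleteSpace K]

/-- **one factor of a leg**: a calculus of `C₀(G)`, `q` the projection of the lattice to the
factor; `g` acts on the right by some element `x` of `G`. No injectivity, no discreteness. -/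
structure FLeg {G : Type} [Group G] [TopologicalSpace G] (π : E →* (K →L[ℂ] K))
    (lam : Γ →* (K →L[ℂ] K)) (W : Set (K →L[ℂ] K)) (q : Γ →* G)
    (Q : C₀(G, ℂ) →⋆ₙₐ[ℂ] (K →L[ℂ] K)) : Prop where
  nd : ∀ ξ, (∀ ψ, Q ψ ξ = 0) → ξ = 0
  cm : ∀ ψ, Cm W (Q ψ)
  cov : ∀ γ (ψ ψ' : C₀(G, ℂ)), (∀ x, ψ' x = ψ ((q γ)⁻¹ * x)) → lam γ * Q ψ * lam γ⁻¹ = Q ψ'
  pcov : ∀ g, ∃ x : G, ∀ ψ ψ' : C₀(G, ℂ), (∀ y, ψ' y = ψ (y * x)) → π g * Q ψ * π g⁻¹ = Q ψ'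

variable {ι : Type} [Fintype ι] {G : ι → Type} [∀ i, Group (G i)] [∀ i, TopologicalSpace (G i)]
  [∀ i, IsTopologicalGroup (G i)] [∀ i, LocallyCompactSpace (G i)] [∀ i, T2Space (G i)]

/-- **[P-END], the joint leg** -/
theorem joint_pi {π : E →* (K →L[ℂ] K)} {lam : Γ →* (K →L[ℂ] K)} {W : Set (K →L[ℂ] K)}
    {q : ∀ i, Γ →* G i} {Q : ∀ i, C₀(G i, ℂ) →⋆ₙₐ[ℂ] (K →L[ℂ] K)}
    (h : ∀ i, FLeg π lam W (q i) (Q i))
    (hc : ∀ i j, i ≠ j → ∀ ψ φ, Commute (Q i ψ) (Q j φ))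
    (inj : Function.Injective (MonoidHom.pi q))
    (disc : ∀ C : Set (∀ i, G i), IsCompact C → {γ | MonoidHom.pi q γ ∈ C}.Finite) :
    ∃ QQ : C₀(∀ i, G i, ℂ) →⋆ₙₐ[ℂ] (K →L[ℂ] K),
      CLeg π lam W (MonoidHom.pi q) QQ ∧
      (∀ T : K →L[ℂ] K, (∀ i ψ, Commute T (Q i ψ)) → ∀ Ψ, Commute T (QQ Ψ)) := by
  obtain ⟨QQ, h1, h2, h3⟩ := exists_pi Q (fun i => (h i).nd) hc
  refine ⟨QQ, ⟨h1, ?_, ?_, ?_, inj, disc⟩, h2⟩
  · intro Ψ w hw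
    exact (h2 w (fun i ψ => ((h i).cm ψ w hw).symm) Ψ).symm
  · intro γ Ψ Ψ' hΨ
    refine h3 (fun i => Homeomorph.mulLeft (q i γ)⁻¹) (lam γ) (lam γ⁻¹) ?_ ?_ ?_ Ψ Ψ' ?_
    · rw [← map_mul, mul_inv_cancel, map_one]
    · rw [← map_mul, inv_mul_cancel, map_one]
    · intro i ψ ψ' hψ
      exact (h i).cov γ ψ ψ' hψ
    · intro x
      rw [hΨ]
      rfl
  · intro g Ψ
    choose a ha using fun i => (h i).pcov g
    let H : (∀ i, G i) ≃ₜ (∀ i, G i) := Homeomorph.mulRight a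
    let Ψ' : C₀(∀ i, G i, ℂ) :=
      ⟨⟨fun x => Ψ (H x), Ψ.continuous.comp H.continuous⟩,
        Ψ.zero_at_infty'.comp H.isClosedEmbedding.tendsto_cocompact⟩
    refine ⟨Ψ', ?_⟩
    refine h3 (fun i => Homeomorph.mulRight (a i)) (π g) (π g⁻¹) ?_ ?_ ?_ Ψ Ψ' ?_
    · rw [← map_mul, mul_inv_cancel, map_one]
    · rw [← map_mul, inv_mul_cancel, map_one]
    · intro i ψ ψ' hψ
      exact ha i ψ ψ' hψ
    · intro x
      rfl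

end leg

section conc

open Vale.Agent.P092.RC Vale.Agent.P092.H160 Vale.Agent.P092.SR

variable {E : Type} [Group E] [TopologicalSpace E] [IsTopologicalGroup E] [LocallyCompactSpace E]
  [SecondCountableTopology E] [T2Space E] [MeasurableSpace E] [BorelSpace E]
  {Γ : Subgroup E} [DiscreteTopology Γ] [MeasurableSpace (E ⧸ Γ)] [BorelSpace (E ⧸ Γ)]
  {ν : Measure (E ⧸ Γ)} [IsProbabilityMeasure ν] [Countable Γ]
  (hν : ∀ g : E, ν.map (fun x => g • x) = ν)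
  {Λ : Type} [Group Λ] [Countable Λ] {α : Γ →* (Ell2 Λ →L[ℂ] Ell2 Λ)} (hα : Frame α)

/-- **[P-END]**: the end of the classical picture for a product of factors. -/
theorem mono_of_prod {ι₁ ι₂ : Type} [Fintype ι₁] [Fintype ι₂] {G₁ : ι₁ → Type} {G₂ : ι₂ → Type}
    [∀ i, Group (G₁ i)] [∀ i, TopologicalSpace (G₁ i)]
    [∀ i, IsTopologicalGroup (G₁ i)] [∀ i, LocallyCompactSpace (G₁ i)] [∀ i, T2Space (G₁ i)]
    [∀ i, Group (G₂ i)] [∀ i, TopologicalSpace (G₂ i)]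
    [∀ i, IsTopologicalGroup (G₂ i)] [∀ i, LocallyCompactSpace (G₂ i)] [∀ i, T2Space (G₂ i)]
    {q₁ : ∀ i, Γ →* G₁ i} {q₂ : ∀ i, Γ →* G₂ i}
    {Q₁ : ∀ i, C₀(G₁ i, ℂ) →⋆ₙₐ[ℂ] (RC.KK ν Λ →L[ℂ] RC.KK ν Λ)}
    {Q₂ : ∀ i, C₀(G₂ i, ℂ) →⋆ₙₐ[ℂ] (RC.KK ν Λ →L[ℂ] RC.KK ν Λ)}
    (h₁ : ∀ i, FLeg (RC.pic hν hα) (RC.lam₁ ν α) (RC.XX ν Λ ∪ Set.range (RC.lam₂ ν α))
      (q₁ i) (Q₁ i))
    (h₂ : ∀ i, FLeg (RC.pic hν hα) (RC.lam₂ ν α) (RC.XX ν Λ ∪ Set.range (RC.lam₁ ν α))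
      (q₂ i) (Q₂ i))
    (c₁ : ∀ i j, i ≠ j → ∀ ψ φ, Commute (Q₁ i ψ) (Q₁ j φ))
    (c₂ : ∀ i j, i ≠ j → ∀ ψ φ, Commute (Q₂ i ψ) (Q₂ j φ))
    (inj₁ : Function.Injective (MonoidHom.pi q₁)) (inj₂ : Function.Injective (MonoidHom.pi q₂))
    (disc₁ : ∀ C : Set (∀ i, G₁ i), IsCompact C → {γ | MonoidHom.pi q₁ γ ∈ C}.Finite)
    (disc₂ : ∀ C : Set (∀ i, G₂ i), IsCompact C → {γ | MonoidHom.pi q₂ γ ∈ C}.Finite)
    (hc : ∀ i j ψ φ, Commute (Q₁ i ψ) (Q₂ j φ)) : RC.MonoV α := by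
  obtain ⟨QQ₁, k₁, m₁⟩ := joint_pi h₁ c₁ inj₁ disc₁
  obtain ⟨QQ₂, k₂, m₂⟩ := joint_pi h₂ c₂ inj₂ disc₂
  refine H264.Cl.mono_of_legs hν hα k₁ k₂ fun Ψ Φ => ?_
  refine m₂ _ (fun j φ => ?_) Φ
  exact (m₁ _ (fun i ψ => (hc i j ψ φ).symm) Ψ).symm

end conc

end Vale.Agent.P092.H943
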