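import Vale.Agent.P092.H218.NAll

/-!
P092 (helper943), TEAM N, [P-CROSS], part (X2): from 'point, bounded letter, hyperplane through the
point' to commutation with the calculus of the point. `T` is ANY operator; it never has to commute
with anything.
-/

set_option linter.all false

namespace Vale.Agent.P092.H943

open Set Topology Module
open Vale.Agent.P092.H218 (loc mul_ap)
open Vale.Agent.P092.H100.Gr (Gr)
open Vale.Agent.P092.H232 (Nin two_ind split_inc)
open Vale.Agent.P092.H218.NC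

section join

variable {X₁ X₂ Z K : Type*} [TopologicalSpace X₁] [CompactSpace X₁] [T2Space X₁]
  [TopologicalSpace X₂] [CompactSpace X₂] [T2Space X₂]
  [TopologicalSpace Z] [CompactSpace Z] [T2Space Z]
  [NormedAddCommGroup K] [InnerProductSpace ℂ K] [CompleteSpace K]

/-- **the one-sided join step** -/
theorem join1 {I₁ : X₁ → Z → Prop} {I₂ : X₂ → Z → Prop} {J : X₁ → X₂ → Prop}
    (hI₁ : IsClosed {q : X₁ × Z | I₁ q.1 q.2}) (hI₂ : IsClosed {q : X₂ × Z | I₂ q.1 q.2})
    (huniq : ∀ x y, ¬ J x y → ∀ z z', I₁ x z → I₂ y z → I₁ x z' → I₂ y z' → z = z')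
    (c : C(X₁, ℂ) →⋆ₐ[ℂ] (K →L[ℂ] K)) (e : C(X₂, ℂ) →⋆ₐ[ℂ] (K →L[ℂ] K)) (B : K →L[ℂ] K)
    (p y : C(Z, ℂ) →⋆ₐ[ℂ] (K →L[ℂ] K))
    (hpe : ∀ a v, Commute (e a) (p v)) (hye : ∀ a s, Commute (e a) (y s))
    (hpy : ∀ v s, Commute (p v) (y s))
    (iep : ∀ a v, Nin I₂ a v → e a * p v = 0) (iey : ∀ a s, Nin I₂ a s → e a * y s = 0)
    (agr : ∀ ξ, (∀ f, p f ξ = y f ξ) → ξ = 0)
    (keyp : ∀ u v, Nin I₁ u v → c u * B * p v = 0)
    (keyy : ∀ u s, Nin I₁ u s → c u * B * y s = 0)
    (u : C(X₁, ℂ)) (a : C(X₂, ℂ)) (hJ : Nin J u a) :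
    c u * B * e a = 0 := by
  -- one side
  have side : ∀ (r : C(Z, ℂ) →⋆ₐ[ℂ] (K →L[ℂ] K)), (∀ a v, Commute (e a) (r v)) →
      (∀ a v, Nin I₂ a v → e a * r v = 0) → (∀ u v, Nin I₁ u v → c u * B * r v = 0) →
      ∀ (x : X₁) (y' : X₂) (v : C(Z, ℂ)), (∀ z ∈ tsupport ⇑v, I₁ x z → I₂ y' z → False) →
      ∃ O V, IsOpen O ∧ x ∈ O ∧ IsOpen V ∧ y' ∈ V ∧
        ∀ (u' : C(X₁, ℂ)) (a' : C(X₂, ℂ)), tsupport ⇑u' ⊆ O → tsupport ⇑a' ⊆ V →
          c u' * B * e a' * r v = 0 := by
    intro r hr ir kr x y' v hc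
    obtain ⟨v₁, v₂, hv, O, V, hO, hxO, hV, hyV, h1, h2⟩ := split_inc hI₁ hI₂ v hc
    refine ⟨O, V, hO, hxO, hV, hyV, fun u' a' hu' ha' => ?_⟩
    have e1 : c u' * B * r v₁ = 0 := kr _ _ (h1 _ hu')
    have e2 : e a' * r v₂ = 0 := ir _ _ (h2 _ ha')
    have e3 : c u' * B * e a' * r v₁ = 0 := by
      rw [mul_assoc _ (e a'), (hr a' v₁).eq, ← mul_assoc, e1, zero_mul]
    rw [hv, map_add, mul_add, e3, mul_assoc _ (e a') (r v₂), e2, mul_zero, add_zero]
  -- `T p(v) y(s) = 0` for disjoint supports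
  have main : ∀ v s : C(Z, ℂ), Disjoint (tsupport ⇑v) (tsupport ⇑s) →
      c u * B * e a * p v * y s = 0 := by
    intro v s hvs
    refine two_ind (A := K →L[ℂ] K) (S₁ := tsupport ⇑u) (S₂ := tsupport ⇑a)
      (fun u' a' => c u' * B * e a' * p v * y s)
      (fun u' u'' a' => by simp only [map_add, add_mul])
      (fun u' a' a'' => by simp only [mul_add, map_add, add_mul])
      (isClosed_tsupport _).isCompact (isClosed_tsupport _).isCompact
      (fun x hx y' hy' => ?_) u a subset_rfl subset_rfl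
    have hxy : ¬ J x y' := hJ x hx y' hy'
    by_cases hc : ∀ z ∈ tsupport ⇑v, I₁ x z → I₂ y' z → False
    · obtain ⟨O, V, hO, hxO, hV, hyV, h⟩ := side p hpe iep keyp x y' v hc
      refine ⟨O, V, hO, hxO, hV, hyV, fun u' a' hu' ha' => ?_⟩
      change c u' * B * e a' * p v * y s = 0
      rw [h u' a' hu' ha', zero_mul]
    · push Not at hc
      obtain ⟨z₀, hz₀, h10, h20, -⟩ := hc
      have hs : ∀ z ∈ tsupport ⇑s, I₁ x z → I₂ y' z → False := by
        intro z hz h1 h2
        rw [huniq x y' hxy z z₀ h1 h2 h10 h20] at hz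
        exact disjoint_left.1 hvs hz₀ hz
      obtain ⟨O, V, hO, hxO, hV, hyV, h⟩ := side y hye iey keyy x y' s hs
      refine ⟨O, V, hO, hxO, hV, hyV, fun u' a' hu' ha' => ?_⟩
      change c u' * B * e a' * p v * y s = 0
      rw [mul_assoc _ (p v), (hpy v s).eq, ← mul_assoc, h u' a' hu' ha', zero_mul]
  -- the adjoint of `T` has its range in the agreement space
  set T := c u * B * e a with hT
  have hst : star T = 0 := by
    ext ξ
    refine agr _ fun f => ?_
    have hl := loc y p (1 : K →L[ℂ] K) (star T ξ) (fun s v hsv => ?_) f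
    · simpa using hl
    · have h1 := main (star v) (star s) ?_
      · have h2 : y s * p v * star T = 0 := by
          have h3 := congrArg star h1
          simp only [star_mul, map_star, star_star, star_zero] at h3
          rw [mul_assoc]; exact h3
        have := congrArg (fun S : K →L[ℂ] K => S ξ) h2
        simpa [mul_ap] using this
      · rw [tsupport_star, tsupport_star]; exact hsv.symm
  have := congrArg star hst
  rwa [star_star, star_zero] at this

end join

section chain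

variable {F : Type*} [Field F] {k : Type*} [NontriviallyNormedField k] [ProperSpace k] {N : ℕ}
  {K : Type*} [NormedAddCommGroup K] [InnerProductSpace ℂ K] [CompleteSpace K]
  {G : ∀ j, Gr F (Fin (N + 1)) j → (C(Gr k (Fin (N + 1)) j, ℂ) →⋆ₐ[ℂ] (K →L[ℂ] K))}

/-- two spaces of dimension `j + 1` through `X` -/
theorem exists_two_over {j : ℕ} (hj : j + 1 ≤ N) (X : Gr F (Fin (N + 1)) j) :
    ∃ P Q : Gr F (Fin (N + 1)) (j + 1), P ≠ Q ∧ X.1 ≤ P.1 ∧ X.1 ≤ Q.1 := by
  have h1 : ¬ (⊤ : Submodule F (Fin (N + 1) → F)) ≤ X.1 := fun h => by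
    have := Submodule.finrank_mono h
    rw [finrank_top, finrank_pi, X.2, Fintype.card_fin] at this
    omega
  obtain ⟨b, -, hb⟩ := exists_pt h1
  obtain ⟨Q, hQ, hQP⟩ := exists_other X ⟨b.1 ⊔ X.1, rank_join b X hb⟩ le_sup_right
    (by rw [Fintype.card_fin]; omega)
  exact ⟨_, Q, hQP.symm, le_sup_right, hQ⟩

/-- (X2), the chain from hyperplanes through `c` down to spaces of dimension `j` -/
theorem x2_chain (hN : 2 ≤ N) (hG : Cal G) (hK : Key₁ G) (T : K →L[ℂ] K)
    (c : Gr F (Fin (N + 1)) 1)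
    (hx : ∀ M : Gr F (Fin (N + 1)) N, c.1 ≤ M.1 → ∀ u h, Nin In u h →
      G 1 c u * T * G N M h = 0) (d : ℕ) : ∀ j, 1 ≤ j → j + d = N →
      ∀ X : Gr F (Fin (N + 1)) j, c.1 ≤ X.1 → ∀ u a, Nin In u a → G 1 c u * T * G j X a = 0 := by
  induction d with
  | zero =>
    intro j hj hjN X hX u a h
    obtain rfl : j = N := by omega
    exact hx X hX u a h
  | succ d ih =>
    intro j hj hjN X hX u a h
    obtain ⟨P, Q, hPQ, hP, hQ⟩ := exists_two_over (by omega) X
    exact join1 (I₁ := fun L Z => In L Z) (I₂ := fun L Z => In L Z) (J := fun L Y => In L Y)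
      in_closed in_closed
      (fun x y hxy z z' h1 h2 h3 h4 => join_uniq x y hxy z z' h1 h2 h3 h4)
      (G 1 c) (G j X) T (G (j + 1) P) (G (j + 1) Q)
      (fun a v => hG.com j (j + 1) (by omega) (by omega) (by omega) X P hP a v)
      (fun a v => hG.com j (j + 1) (by omega) (by omega) (by omega) X Q hQ a v)
      (fun v s => all_comm hN hG hK (j + 1) (j + 1) (by omega) (by omega) (by omega) (by omega)
        P Q v s)
      (fun a v hav => hG.inc j (j + 1) (by omega) (by omega) (by omega) X P hP a v hav)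
      (fun a v hav => hG.inc j (j + 1) (by omega) (by omega) (by omega) X Q hQ a v hav)
      (hG.agr j (by omega) (by omega) P Q hPQ ⟨X, hP, hQ⟩)
      (fun u v huv => ih (j + 1) (by omega) (by omega) P (hX.trans hP) u v huv)
      (fun u v huv => ih (j + 1) (by omega) (by omega) Q (hX.trans hQ) u v huv) u a h

/-- **(X2)**: `E_c(u) T E_M(h) = 0` for all hyperplanes `M` through `c`, off incidence, gives that
`T` commutes with the calculus of the point `c`. -/
theorem x2_point (hN : 2 ≤ N) (hG : Cal G) (hK : Key₁ G) (T : K →L[ℂ] K)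
    (c : Gr F (Fin (N + 1)) 1)
    (hx : ∀ M : Gr F (Fin (N + 1)) N, c.1 ≤ M.1 → ∀ u h, Nin In u h →
      G 1 c u * T * G N M h = 0) (f) : Commute T (G 1 c f) := by
  have h3 := Vale.Agent.P092.H218.loc_op (G 1 c) (G 1 c) T (fun u a hua => by
    have := x2_chain hN hG hK T c hx (N - 1) 1 le_rfl (by omega) c le_rfl u a ?_
    · rw [mul_assoc] at this
      exact this
    · intro x hx y hy hxy
      have : x = y := eq_of_le₀ hxy
      subst this
      exact disjoint_left.1 hua hx hy) f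
  exact h3

/-- (X2) for all points: `T` commutes with all calculi of the factor -/
theorem x2_all (hN : 2 ≤ N) (hG : Cal G) (hK : Key₁ G) (T : K →L[ℂ] K)
    (hx : ∀ (c : Gr F (Fin (N + 1)) 1) (M : Gr F (Fin (N + 1)) N), c.1 ≤ M.1 → ∀ u h, Nin In u h →
      G 1 c u * T * G N M h = 0) (j : ℕ) (hj : 1 ≤ j) (hjN : j ≤ N)
    (X : Gr F (Fin (N + 1)) j) (f) : Commute T (G j X f) :=
  Vale.Agent.P092.H218.NC.comm_all hG T
    (fun c f => x2_point hN hG hK T c (fun M hM => hx c M hM) f) j hj hjN X f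

end chain

end Vale.Agent.P092.H943
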