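import Vale.Agent.P092.H943.Mx4

/-!
P092 (helper943), [MIX] (M4), output form: the N-places of one leg (the fields of `MX.NLeg`) keep
their size tight on the subgroup of the source generated by the D-factors.
-/

set_option linter.all false

open scoped InnerProductSpace ENNReal Topology ZeroAtInfty Pointwise
open Filter Topology ContinuousLinearMap MeasureTheory

namespace Vale.Agent.P092.H943.Mx

open Vale.Agent.P092.RC (Cm TRN TRNF PicF)
open Vale.Agent.P092.SD (MsF)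

variable {E Γ K κ : Type} [Group E] [TopologicalSpace E] [Group Γ] [NormedAddCommGroup K]
  [InnerProductSpace ℂ K] [CompleteSpace K] [Fintype κ] {π : E →* (K →L[ℂ] K)}
  {lam : Γ →* (K →L[ℂ] K)} {W : Set (K →L[ℂ] K)} {Ω : κ → K} {m : Set Γ → (K →L[ℂ] K)}

theorem comm_closure {J : Type} {H : J → Type} [∀ j, Group (H j)] (ι : ∀ j, H j →* E)
    {X : K →L[ℂ] K} (pc : ∀ j h, Commute (π (ι j h)) X) {u : E}
    (hu : u ∈ Subgroup.closure (⋃ j, Set.range (ι j))) : Commute (π u) X := by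
  induction hu using Subgroup.closure_induction with
  | mem x hx =>
    obtain ⟨j, h, rfl⟩ := Set.mem_iUnion.1 hx
    exact pc j h
  | one =>
    rw [map_one]
    exact Commute.one_left X
  | mul x y _ _ hx hy =>
    rw [map_mul]
    exact hx.mul_left hy
  | inv x _ hx =>
    have h1 : π x⁻¹ * π x = 1 := by rw [← map_mul, inv_mul_cancel, map_one]
    have h2 : π x * π x⁻¹ = 1 := by rw [← map_mul, mul_inv_cancel, map_one]
    change π x⁻¹ * X = X * π x⁻¹
    calc π x⁻¹ * X = π x⁻¹ * (X * π x) * π x⁻¹ := by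
          rw [mul_assoc, mul_assoc, h2, mul_one]
      _ = π x⁻¹ * (π x * X) * π x⁻¹ := by rw [hx.eq]
      _ = X * π x⁻¹ := by rw [← mul_assoc, h1, one_mul]

/-- **[MIX] (M4), output form** -/
theorem tight_D {J : Type} {H : J → Type} [∀ j, Group (H j)] (ι : ∀ j, H j →* E)
    {B : Type} [Fintype B] {T : B → Type} [∀ b, Group (T b)]
    [∀ b, TopologicalSpace (T b)] [∀ b, IsTopologicalGroup (T b)]
    [∀ b, LocallyCompactSpace (T b)] [∀ b, T2Space (T b)] (hp : PicF π lam W Ω)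
    (hm : MsF lam W Ω m) {p : ∀ b, Γ →* T b} {Q : ∀ b, C₀(T b, ℂ) →⋆ₙₐ[ℂ] (K →L[ℂ] K)}
    (fl : ∀ b, FLeg π lam W (p b) (Q b)) (pc : ∀ j h b ψ, Commute (π (ι j h)) (Q b ψ))
    (com : ∀ b b', b ≠ b' → ∀ ψ φ, Commute (Q b ψ) (Q b' φ))
    (hd : ∀ C : Set (∀ b, T b), IsCompact C → (Set.range (fun γ b => p b γ) ∩ C).Finite)
    {s₀ : Γ → ℝ} (bd : ∀ C : Set (∀ b, T b), IsCompact C →
      ∃ R, ∀ γ, (fun b => p b γ) ∈ C → s₀ γ ≤ R) (ε : ℝ) (hε : 0 < ε) :
    ∃ r : ℝ, ∀ u ∈ Subgroup.closure (⋃ j, Set.range (ι j)), ∀ l,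
      ‖m {γ | r < s₀ γ} (π u (Ω l))‖ ≤ ε := by
  refine tight_size hp hm (fun b => (fl b).nd) (fun b => (fl b).cm) (fun b => (fl b).cov) com
    (fun C hC => ?_) bd _ (fun g hg b ψ => comm_closure ι (fun j h => pc j h b ψ) hg) ε hε
  refine (hd C hC).subset ?_
  rintro _ ⟨⟨γ, rfl⟩, h⟩
  exact ⟨⟨γ, rfl⟩, h⟩

end Vale.Agent.P092.H943.Mx
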