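import Vale.Agent.P092.H34.X.NX1
import Vale.Agent.P092.H943.Cross

/-!
P092, TEAM N (helper943), products with mixed fields: (X1) of helper584 and (X2) with a source
field `kS` and a target field `k`, for a picture of any kind (`PicL`). No structure is used: the
fields of the leg are hypotheses, so the theorems apply to every version of `LegN`.
-/

set_option linter.all false

open scoped InnerProductSpace ENNReal LinearAlgebra.Projectivization Matrix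
open Filter Topology ContinuousLinearMap MeasureTheory TopologicalSpace

namespace Vale.Agent.P092.H943.SX1

open Vale.Agent.P092.SD (Ms UC)
open Vale.Agent.P092.RC (Cm TRN Moore GG PG YY y0 ct)
open Vale.Agent.P092.SN
open Vale.Agent.P092.H790.CTA (ORBG SIZEG csm of_poly mul_zero_of_dom)
open Vale.Agent.P092.H790.CT (PicL)
open Vale.Agent.P092.H596.N (tendsto_un ph_size nm_pos cap_op_u exists_room act_apply)
open Vale.Agent.P092.H820 (pj pj_surj pj_eq)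
open Vale.Agent.P092.H890 (Mult Ad Rel NK ev ev_ne)
open Vale.Agent.P092.H644.Gr3 (p1 hyp p1_inj)
open Vale.Agent.P092.H644.PGr (p1_smul_gr)
open Vale.Agent.P092.H584.X (ct_bw_fix ct_un_fix exists_y0 mult_bdd lam_inv_mul dense_loc)

section emz

variable {kS : Type} [NontriviallyNormedField kS] [ProperSpace kS] [MeasurableSpace kS]
  [BorelSpace kS] {μ : Measure kS} [IsFiniteMeasureOnCompacts μ] [μ.IsOpenPosMeasure]
  {k : Type} [NontriviallyNormedField k] [ProperSpace k] {N : ℕ} {E Γ K : Type}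
  [Group E] [TopologicalSpace E] [Group Γ] [NormedAddCommGroup K] [InnerProductSpace ℂ K]
  [CompleteSpace K] {w : kSˣ} {ι : GG kS N →* E} {a a' : E →* PG kS (N + 1)}
  {π : E →* (K →L[ℂ] K)} {lam : Γ →* (K →L[ℂ] K)} {W : Set (K →L[ℂ] K)} {Ω : K}
  {m : Set Γ → (K →L[ℂ] K)} {q : Γ → GG k N} {Z : ℝ → Set Γ}
  {Ec F : YY kS N → (CY k N →⋆ₐ[ℂ] (K →L[ℂ] K))}

/-- **The counting theorem**, source field `kS`, target field `k`. -/
theorem emz (hA : Adm ι a a') (hP : PicL π lam W Ω) (hM : Ms lam W Ω m) (hUC : UC π W Ω m)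
    (hph : PH q)
    (horb : ∀ {j : Fin (N + 1)} (hj : (0 : Fin (N + 1)) ≠ j), ∃ ρ : ℝ, 0 < ρ ∧ ρ < 1 ∧
      ORBG μ (ι (bw w)) (fun s => ι (un hj s)) ρ π lam W Ω)
    (hsize : SIZEG (ι (bw w)) π Ω m fun γ => nm (q γ))
    (hdom : ∀ (g : GG kS N) (u : CY k N) (A : Set (YY k N)), IsOpen A → tsupport u ⊆ A →
      ∀ ζ : K, ∀ ε > 0, ∃ R : ℝ, ∀ T > 0, ∀ᶠ t : ℕ in atTop,
        ‖Ec (g • y0) u ζ‖ ≤ ‖u‖ * ‖m (NWA q Z R T A) (π (ι (g * bw w ^ t * g⁻¹))⁻¹ ζ)‖ + ε)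
    {j : Fin (N + 1)} (hj : (0 : Fin (N + 1)) ≠ j) {g : GG kS N} {B : K →L[ℂ] K} (hB : Cm W B)
    (hb : Commute B (π (ι (g * bw w * g⁻¹)))) (hn : ∀ s, Commute B (π (ι (g * un hj s * g⁻¹))))
    {A : Set (YY k N)} (hAo : IsOpen A) {u : CY k N} (hu : tsupport u ⊆ A)
    (hc : ∀ R : ℝ, ∃ T > 0, ∃ (C : ℝ) (d : ℕ), ∀ J : ℝ, 0 ≤ J → ∀ S : Finset Γ,
      (∀ γ ∈ S, γ ∈ NWA q Z R T A ∧ Real.log (nm (q γ)) ≤ J) →
        ∑ γ ∈ S, ‖adjoint B (lam γ Ω)‖ ^ 2 ≤ C * (1 + J) ^ d) :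
    Ec (g • y0) u * B = 0 := by
  haveI := hA.tg
  obtain ⟨ρ, hρ0, hρ1, hORB⟩ := horb hj
  have hnc : Tendsto (fun s : kS => ι (un hj s)) (𝓝 0) (𝓝 1) := by
    have h1 := (hA.cι.tendsto 1).comp (tendsto_un (k := kS) hj)
    rwa [map_one] at h1
  have e1 : ∀ x : GG kS N, ι (g * x * g⁻¹) = ι g * ι x * (ι g)⁻¹ := fun x => by
    rw [map_mul, map_mul, map_inv]
  refine mul_zero_of_dom (μ := μ) hP hM hUC hρ0.le hnc hORB (ph_size hph)
    hsize (g := ι g) (c := ‖u‖) hB (by rw [← e1]; exact hb) (fun s => by rw [← e1]; exact hn s)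
    fun ζ ε hε => ?_
  obtain ⟨R, hR⟩ := hdom g u A hAo hu ζ ε hε
  obtain ⟨T, hT, C, d, hC⟩ := hc R
  refine ⟨NWA q Z R T A, ?_, ?_⟩
  · obtain ⟨η, hη, h'⟩ := of_poly (lam := lam) (Ω := Ω) hρ0 hρ1
      (sz := fun γ => nm (q γ)) (fun γ => nm_pos (q γ)) d
    exact ⟨η, hη, h' B (NWA q Z R T A) C hC⟩
  · filter_upwards [hR T hT] with t ht
    rw [e1, map_pow] at ht
    exact ht

end emz

section x1

variable {kS : Type} [NontriviallyNormedField kS] [ProperSpace kS] [MeasurableSpace kS]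
  [BorelSpace kS] {μ : Measure kS} [IsFiniteMeasureOnCompacts μ] [μ.IsOpenPosMeasure]
  {k : Type} [NontriviallyNormedField k] [ProperSpace k] {N : ℕ} {E Γ K : Type}
  [Group E] [TopologicalSpace E] [Group Γ] [NormedAddCommGroup K] [InnerProductSpace ℂ K]
  [CompleteSpace K] {w : kSˣ} {ι : GG kS N →* E} {a a' : E →* PG kS (N + 1)}
  {π : E →* (K →L[ℂ] K)} {lam : Γ →* (K →L[ℂ] K)} {W : Set (K →L[ℂ] K)} {Ω : K}
  {m : Set Γ → (K →L[ℂ] K)} {q : Γ → GG k N} {Z : ℝ → Set Γ}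
  {Ec F : YY kS N → (CY k N →⋆ₐ[ℂ] (K →L[ℂ] K))}
  {k' : Type} [NontriviallyNormedField k'] [ProperSpace k'] {N' : ℕ}

/-- the translates of `E' f`, `F M h` -/
theorem x1_ad (hA : Adm ι a a') (hP : PicL π lam W Ω) (hM : Ms lam W Ω m) (hUC : UC π W Ω m)
    (hph : PH q) (hud : ∀ R, UD q (Z R))
    (horb : ∀ {j : Fin (N + 1)} (hj : (0 : Fin (N + 1)) ≠ j), ∃ ρ : ℝ, 0 < ρ ∧ ρ < 1 ∧
      ORBG μ (ι (bw w)) (fun s => ι (un hj s)) ρ π lam W Ω)
    (hsize : SIZEG (ι (bw w)) π Ω m fun γ => nm (q γ))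
    (hdom : ∀ (g : GG kS N) (u : CY k N) (A : Set (YY k N)), IsOpen A → tsupport u ⊆ A →
      ∀ ζ : K, ∀ ε > 0, ∃ R : ℝ, ∀ T > 0, ∀ᶠ t : ℕ in atTop,
        ‖Ec (g • y0) u ζ‖ ≤ ‖u‖ * ‖m (NWA q Z R T A) (π (ι (g * bw w ^ t * g⁻¹))⁻¹ ζ)‖ + ε)
    (fcm : ∀ x f, Cm W (F x f))
    (fcov : ∀ γ x f, lam γ * F x f * lam γ⁻¹ = F x (act (ct (q γ)) f))
    (fpcov : ∀ e x f, π e * F x f * π e⁻¹ = F (a' e • x) f) {q' : Γ → GG k' N'}
    (hq' : ∀ R, ∃ C, ∀ γ ∈ Z R, nm (q' γ) ≤ C) {E' : CY k' N' →⋆ₐ[ℂ] (K →L[ℂ] K)}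
    (cm : ∀ f, Cm W (E' f)) (pc : ∀ g f, π (ι g) * E' f = E' f * π (ι g))
    (cov : ∀ γ f, lam γ * E' f * lam γ⁻¹ = E' (act (q' γ) f)) {f : CY k' N'} (hf : Ad (star f))
    {c M : YY kS N} (hc : inc c M) {u v : CY k N} (huv : NInc (tsupport u) (tsupport v)) :
    Ec c u * E' f * F M v = 0 := by
  obtain ⟨g, rfl⟩ := exists_y0 (by linarith [hA.hN]) c
  obtain ⟨j, hj⟩ : ∃ j : Fin (N + 1), (0 : Fin (N + 1)) ≠ j :=
    ⟨Fin.last N, by
      intro h0
      have := congrArg Fin.val h0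
      have h2 := hA.hN
      simp at this
      omega⟩
  obtain ⟨V, hV, hAV, hVB⟩ := exists_room (isClosed_tsupport (u : YY k N → ℂ))
    (isClosed_tsupport (v : YY k N → ℂ)) huv
  -- hyperplanes through `g • y0`
  obtain ⟨M₀, hM₀⟩ : ∃ M₀, M = ct g • M₀ := ⟨(ct g)⁻¹ • M, (smul_inv_smul _ _).symm⟩
  have hinc : ∀ (x : GG kS N) (p l : YY kS N), inc (x • p) (ct x • l) ↔ inc p l := by
    intro x p l
    have := hA.ort (ι x) p l
    rwa [hA.comp, hA.comp'] at this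
  have hM0 : inc y0 M₀ := by
    rw [hM₀, hinc] at hc
    exact hc
  have hfix : ∀ x : GG kS N, ct x • M₀ = M₀ → Commute (F M v) (π (ι (g * x * g⁻¹))) := by
    intro x hx
    have h1 := fpcov (ι (g * x * g⁻¹)) M v
    have h2 : a' (ι (g * x * g⁻¹)) • M = M := by
      rw [hA.comp', hM₀, smul_smul, ← map_mul, inv_mul_cancel_right, map_mul, mul_smul, hx]
    rw [h2] at h1
    have h3 : π (ι (g * x * g⁻¹))⁻¹ * π (ι (g * x * g⁻¹)) = 1 := by
      rw [← map_mul, inv_mul_cancel, map_one]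
    change F M v * _ = _ * F M v
    calc F M v * π (ι (g * x * g⁻¹))
        = (π (ι (g * x * g⁻¹)) * F M v * π (ι (g * x * g⁻¹))⁻¹) * π (ι (g * x * g⁻¹)) := by
          rw [h1]
      _ = _ := by rw [mul_assoc, h3, mul_one]
  have hE : ∀ x : GG kS N, Commute (E' f) (π (ι x)) := fun x => (pc x f).symm
  rw [mul_assoc]
  refine emz (μ := μ) (Z := Z) (B := E' f * F M v) hA hP hM hUC hph horb hsize hdom hj ?_
    ((hE _).mul_left (hfix _ (ct_bw_fix w hM0)))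
    (fun s => (hE _).mul_left (hfix _ (ct_un_fix hj s hM0))) hV hAV fun R => ?_
  · intro w' hw'
    rw [mul_assoc, fcm M v w' hw', ← mul_assoc, cm f w' hw', mul_assoc]
  · obtain ⟨T₀, hT₀, hcap⟩ := cap_op_u (K := K) (f := star v) (A := V)
      (by linarith [hA.hN] : 0 < N) hud (by
        intro x hx l hl
        refine hVB x hx l ?_
        have e : tsupport ((star v : CY k N) : YY k N → ℂ) = tsupport (v : YY k N → ℂ) := by
          unfold tsupport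
          congr 1
          ext y
          simp
        rwa [e] at hl)
    obtain ⟨C, hC, hcap⟩ := hcap T₀ le_rfl R
    obtain ⟨C', hC'⟩ := hq' R
    obtain ⟨D, hD, hmul⟩ := mult_bdd hf C'
    refine ⟨T₀, hT₀, C * D ^ 2 * ‖Ω‖ ^ 2, 1, fun J hJ S hS => ?_⟩
    have h1 := (hmul K E' Γ S q' fun γ hγ => hC' γ (hS γ hγ).1.1).2
      (fun γ => F M (act (ct (q γ))⁻¹ (star v))) (C * (1 + J)) (by positivity)
      (fun x => hcap J S hJ hS (F M) x) Ω
    refine le_trans (le_of_eq ?_) (h1.trans (le_of_eq (by ring)))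
    refine Finset.sum_congr rfl fun γ hγ => ?_
    congr 1
    have e1 : adjoint (E' f * F M v) = F M (star v) * E' (star f) := by
      change star (E' f * F M v) = _
      rw [star_mul, ← map_star, ← map_star]
    have e2 : adjoint (E' f * F M v) (lam γ Ω) =
        lam γ (F M (act (ct (q γ))⁻¹ (star v)) (E' (act (q' γ)⁻¹ (star f)) Ω)) := by
      rw [e1]
      have e3 := lam_inv_mul cov γ (star f)
      have e4 := lam_inv_mul (p := fun γ => ct (q γ)) (fun γ f => fcov γ M f) γ (star v)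
      calc (F M (star v) * E' (star f)) (lam γ Ω)
          = (F M (star v) * (E' (star f) * lam γ)) Ω := rfl
        _ = (F M (star v) * lam γ * E' (act (q' γ)⁻¹ (star f))) Ω := by rw [e3, ← mul_assoc]
        _ = _ := by rw [e4]; rfl
    rw [e2]
    have h5 : ‖lam γ (F M (act (ct (q γ))⁻¹ (star v)) (E' (act (q' γ)⁻¹ (star f)) Ω))‖ =
        ‖F M (act (ct (q γ))⁻¹ (star v)) (E' (act (q' γ)⁻¹ (star f)) Ω)‖ :=
      Vale.Agent.P092.H790.CT.lam_norm hP γ _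
    exact h5

/-- **(X1)**: the calculi `E'` of another factor as letters of the word lemma. -/
theorem x1 (hk' : Vale.Agent.P092.H933.LocK k') (hA : Adm ι a a') (hP : PicL π lam W Ω)
    (hM : Ms lam W Ω m) (hUC : UC π W Ω m)
    (hph : PH q) (hud : ∀ R, UD q (Z R))
    (horb : ∀ {j : Fin (N + 1)} (hj : (0 : Fin (N + 1)) ≠ j), ∃ ρ : ℝ, 0 < ρ ∧ ρ < 1 ∧
      ORBG μ (ι (bw w)) (fun s => ι (un hj s)) ρ π lam W Ω)
    (hsize : SIZEG (ι (bw w)) π Ω m fun γ => nm (q γ))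
    (hdom : ∀ (g : GG kS N) (u : CY k N) (A : Set (YY k N)), IsOpen A → tsupport u ⊆ A →
      ∀ ζ : K, ∀ ε > 0, ∃ R : ℝ, ∀ T > 0, ∀ᶠ t : ℕ in atTop,
        ‖Ec (g • y0) u ζ‖ ≤ ‖u‖ * ‖m (NWA q Z R T A) (π (ι (g * bw w ^ t * g⁻¹))⁻¹ ζ)‖ + ε)
    (fcm : ∀ x f, Cm W (F x f))
    (fcov : ∀ γ x f, lam γ * F x f * lam γ⁻¹ = F x (act (ct (q γ)) f))
    (fpcov : ∀ e x f, π e * F x f * π e⁻¹ = F (a' e • x) f) {q' : Γ → GG k' N'}
    (hq' : ∀ R, ∃ C, ∀ γ ∈ Z R, nm (q' γ) ≤ C) {E' : CY k' N' →⋆ₐ[ℂ] (K →L[ℂ] K)}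
    (cm : ∀ f, Cm W (E' f)) (pc : ∀ g f, π (ι g) * E' f = E' f * π (ι g))
    (cov : ∀ γ f, lam γ * E' f * lam γ⁻¹ = E' (act (q' γ) f)) :
    ∀ (c M : YY kS N) (u : CY k N) (f : CY k' N') (v : CY k N), inc c M →
      NInc (tsupport u) (tsupport v) → Ec c u * E' f * F M v = 0 := by
  intro c M u f v hc huv
  have hd : Dense {f : CY k' N' | Ad f} := dense_loc hk'
  have hcont : Continuous fun f : CY k' N' => Ec c u * E' f * F M v := by
    have h1 : Continuous fun f : CY k' N' => E' f :=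
      AddMonoidHomClass.continuous_of_bound E' 1 fun f => by
        rw [one_mul]
        exact NonUnitalStarAlgHom.norm_apply_le E' f
    exact (continuous_const.mul h1).mul continuous_const
  have hcl : IsClosed {f : CY k' N' | Ec c u * E' f * F M v = 0} :=
    isClosed_eq hcont continuous_const
  have hd' : Dense {f : CY k' N' | Ad (star f)} := by
    have := hd.preimage (f := fun f : CY k' N' => star f) (Homeomorph.mk
      (Equiv.mk star star star_star star_star) continuous_star continuous_star).isOpenMap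
    exact this
  have : f ∈ closure {f : CY k' N' | Ec c u * E' f * F M v = 0} :=
    closure_mono (fun f hf => x1_ad (μ := μ) (Z := Z) hA hP hM hUC hph hud horb hsize hdom fcm
      fcov fpcov hq' cm pc cov hf hc huv) (hd' f)
  rw [hcl.closure_eq] at this
  exact this

end x1

end Vale.Agent.P092.H943.SX1
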