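import Vale.Agent.P092.SX.Blocks
import Vale.Agent.P092.H943.SX1

/-!
P092, TEAM N, two fields (helper943): the joints `SX.X1Stmt` and `SX.X12Stmt` of products.
-/

set_option linter.all false

open scoped InnerProductSpace ENNReal LinearAlgebra.Projectivization ZeroAtInfty
open Filter Topology ContinuousLinearMap MeasureTheory TopologicalSpace

namespace Vale.Agent.P092.SX

open Vale.Agent.P092.SN (CY CG inc NInc bw un nm NW Att act PH UD NWA actG fp fh Prv Adm)
open Vale.Agent.P092.RC (Cm TRN Moore GG PG YY y0 ct)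
open Vale.Agent.P092.H100.Gr (Gr)
open Vale.Agent.P092.H644.Gr3

section x

variable {kS : Type} [NontriviallyNormedField kS] [ProperSpace kS] [MeasurableSpace kS]
  {k : Type} [NontriviallyNormedField k] [ProperSpace k]
  {k' : Type} [NontriviallyNormedField k'] [ProperSpace k'] {μ : Measure kS}

/-- **(X1)** with three fields: source `kS`, target `k`, other factor `k'`. -/
theorem x1Stmt [BorelSpace kS] [IsFiniteMeasureOnCompacts μ] [μ.IsOpenPosMeasure]
    (hk' : Vale.Agent.P092.H933.LocK k') : X1Stmt kS k k' μ := by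
  intro N N' E Γ K _ _ _ _ _ _ w ι a a' π lam W Ω m q Z Ec F q' E' hL hq' hb hcm hπ hcov c M hc u h
    f huh
  exact H943.SX1.x1 (μ := μ) (Z := Z) hk' hL.adm (H34.XN.picL hL.pic) hL.ms hL.uc hL.ph hL.ud
    hL.orb hL.size hL.e.dom hL.f.cm hL.f.cov hL.f.pcov hb hcm hπ hcov c M u f h hc huh

/-- (X1) and (X2) give (X12) -/
theorem x12_of (h : X1Stmt kS k k' μ) : X12Stmt kS k k' μ := by
  intro N N' E Γ K _ _ _ _ _ _ w ι a a' π lam W Ω m q Z Ec F G q' E' hL hG hK hq' hb hcm hπ hcov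
    c u f
  obtain ⟨u', hu'⟩ : ∃ u' : CG k N 1, fp u' = u :=
    ⟨u.comp ⟨p1H.symm, p1H.symm.continuous⟩, by
      ext x
      change u (p1H.symm (p1 x)) = u x
      rw [← p1H_apply, Homeomorph.symm_apply_apply]⟩
  rw [← hu', ← hG.pnt]
  refine H943.x2_point hL.adm.hN hG.cal hK (E' f) (p1 c) (fun M hM v g hvg => ?_) u'
  obtain ⟨M', rfl⟩ := hyp_surj M
  rw [hG.pnt, hG.top]
  refine h w ι a a' π lam W Ω m q Z Ec F q' E' hL hq' hb hcm hπ hcov c M' (p1_le_hyp.1 hM)
    (fp v) (fh g) f ?_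
  intro x hx l hl hxl
  have h1 : p1 x ∈ tsupport v := tsupport_comp_subset_preimage v p1_cont hx
  have h2 : hyp l ∈ tsupport g := tsupport_comp_subset_preimage g hyp_cont hl
  exact hvg _ h1 _ h2 (p1_le_hyp.2 hxl)

/-- **(X12)** with three fields -/
theorem x12Stmt [BorelSpace kS] [IsFiniteMeasureOnCompacts μ] [μ.IsOpenPosMeasure]
    (hk' : Vale.Agent.P092.H933.LocK k') : X12Stmt kS k k' μ := x12_of (x1Stmt hk')

end x

end Vale.Agent.P092.SX
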