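import Vale.Agent.P092.H295.Trl

/-!
P092 (helper943), [MIX] (M6): convolutions in `C₀(G)` for a locally compact group `G`, and the
counting of an abstract letter: a bound for fixed vectors gives a bound for vectors moved by a
compact set of translations.
-/

set_option linter.all false

open scoped InnerProductSpace ENNReal Topology ZeroAtInfty Pointwise
open Filter Topology ContinuousLinearMap MeasureTheory

namespace Vale.Agent.P092.H943.Mx

open Vale.Agent.P092.H295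

section conv

variable {G : Type} [Group G] [TopologicalSpace G] [IsTopologicalGroup G]

/-- `ltr g` as a continuous linear map -/
noncomputable def ltrL (g : G) : C₀(G, ℂ) →L[ℂ] C₀(G, ℂ) :=
  LinearMap.mkContinuous
    { toFun := ltr g
      map_add' := fun ψ φ => by ext x; rfl
      map_smul' := fun c ψ => by ext x; rfl } 1 fun ψ => by
    rw [one_mul]
    exact norm_le_of_forall (norm_nonneg _) fun x => norm_apply_le_norm ψ _

theorem ltrL_apply (g : G) (ψ : C₀(G, ℂ)) : ltrL g ψ = ltr g ψ := rfl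

theorem norm_ltr_le (g : G) (ψ : C₀(G, ℂ)) : ‖ltr g ψ‖ ≤ ‖ψ‖ :=
  norm_le_of_forall (norm_nonneg _) fun x => norm_apply_le_norm ψ _

variable [MeasurableSpace G] [BorelSpace G] (μ : Measure G)

/-- the convolution `h * ψ`, as an integral in `C₀(G)` -/
noncomputable def conv (h : G → ℂ) (ψ : C₀(G, ℂ)) : C₀(G, ℂ) := ∫ y, h y • ltr y ψ ∂μ

theorem integrable_conv [IsFiniteMeasureOnCompacts μ] {h : G → ℂ} (hc : Continuous h)
    (hs : HasCompactSupport h) (ψ : C₀(G, ℂ)) : Integrable (fun y => h y • ltr y ψ) μ :=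
  (hc.smul (continuous_ltr ψ)).integrable_of_hasCompactSupport hs.smul_right

theorem ltr_conv [IsFiniteMeasureOnCompacts μ] [μ.IsMulLeftInvariant] {h : G → ℂ}
    (hc : Continuous h) (hs : HasCompactSupport h) (ψ : C₀(G, ℂ)) (g : G) :
    ltr g (conv μ h ψ) = ∫ y, h (g⁻¹ * y) • ltr y ψ ∂μ := by
  have h1 : ltr g (conv μ h ψ) = ∫ y, ltrL g (h y • ltr y ψ) ∂μ :=
    (ContinuousLinearMap.integral_comp_comm (ltrL g) (integrable_conv μ hc hs ψ)).symm
  rw [h1, ← integral_mul_left_eq_self (μ := μ) (fun y => h (g⁻¹ * y) • ltr y ψ) g]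
  refine integral_congr_ae (ae_of_all _ fun y => ?_)
  change ltrL g (h y • ltr y ψ) = h (g⁻¹ * (g * y)) • ltr (g * y) ψ
  rw [map_smul, ltrL_apply, inv_mul_cancel_left, ltr_mul]

/-- **the convolutions are dense in `C₀(G)`** -/
theorem dense_conv [T2Space G] [LocallyCompactSpace G] [IsFiniteMeasureOnCompacts μ]
    [μ.IsOpenPosMeasure] :
    Dense {φ : C₀(G, ℂ) | ∃ (h : G → ℂ) (ψ : C₀(G, ℂ)), Continuous h ∧ HasCompactSupport h ∧
      φ = conv μ h ψ} := by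
  intro ψ
  rw [Metric.mem_closure_iff]
  intro ε hε
  have h1 : Tendsto (fun g : G => ltr g ψ) (𝓝 1) (𝓝 ψ) := by
    have := (continuous_ltr ψ).tendsto 1
    rwa [ltr_one] at this
  have h2 : {g : G | dist (ltr g ψ) ψ < ε / 2} ∈ 𝓝 (1 : G) :=
    h1 (Metric.ball_mem_nhds ψ (half_pos hε))
  obtain ⟨V, hV, hVo, h1V⟩ := mem_nhds_iff.1 h2
  obtain ⟨f, f1, f0, fs, f01⟩ := exists_continuous_one_zero_of_isCompact
    (isCompact_singleton (x := (1 : G))) hVo.isClosed_compl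
    (Set.disjoint_left.2 fun x hx hx' => hx' (by rw [Set.mem_singleton_iff.1 hx]; exact h1V))
  have hf1 : f 1 = 1 := f1 (Set.mem_singleton 1)
  have hpos : 0 < ∫ x, f x ∂μ :=
    f.continuous.integral_pos_of_hasCompactSupport_nonneg_nonzero fs (fun x => (f01 x).1)
      (x := 1) (by rw [hf1]; exact one_ne_zero)
  obtain ⟨c, hc⟩ : ∃ c : ℝ, c = ∫ x, f x ∂μ := ⟨_, rfl⟩
  rw [← hc] at hpos
  have hfi : Integrable (fun x => f x) μ := f.continuous.integrable_of_hasCompactSupport fs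
  have hh : Continuous fun y : G => ((f y / c : ℝ) : ℂ) :=
    Complex.continuous_ofReal.comp (f.continuous.div_const c)
  have hhs : HasCompactSupport fun y : G => ((f y / c : ℝ) : ℂ) := by
    refine fs.mono fun y hy => ?_
    rw [Function.mem_support] at hy ⊢
    intro h0
    apply hy
    rw [h0, zero_div, Complex.ofReal_zero]
  refine ⟨conv μ (fun y => ((f y / c : ℝ) : ℂ)) ψ, ⟨_, ψ, hh, hhs, rfl⟩, ?_⟩
  have hone : ∫ y, ((f y / c : ℝ) : ℂ) ∂μ = 1 := by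
    rw [integral_complex_ofReal, integral_div, ← hc, div_self hpos.ne', Complex.ofReal_one]
  have hint : Integrable (fun y => ((f y / c : ℝ) : ℂ)) μ :=
    hh.integrable_of_hasCompactSupport hhs
  have e1 : conv μ (fun y => ((f y / c : ℝ) : ℂ)) ψ - ψ =
      ∫ y, ((f y / c : ℝ) : ℂ) • (ltr y ψ - ψ) ∂μ := by
    have h3 : ∫ y, ((f y / c : ℝ) : ℂ) • (ltr y ψ - ψ) ∂μ =
        (∫ y, ((f y / c : ℝ) : ℂ) • ltr y ψ ∂μ) - ∫ y, ((f y / c : ℝ) : ℂ) • ψ ∂μ := by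
      rw [← integral_sub (integrable_conv μ hh hhs ψ) (hint.smul_const ψ)]
      refine integral_congr_ae (ae_of_all _ fun y => ?_)
      change ((f y / c : ℝ) : ℂ) • (ltr y ψ - ψ) =
        ((f y / c : ℝ) : ℂ) • ltr y ψ - ((f y / c : ℝ) : ℂ) • ψ
      ext x
      change ((f y / c : ℝ) : ℂ) * (ltr y ψ x - ψ x) =
        ((f y / c : ℝ) : ℂ) * ltr y ψ x - ((f y / c : ℝ) : ℂ) * ψ x
      rw [mul_sub]
    rw [h3, integral_smul_const, hone, one_smul]
    rfl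
  rw [dist_comm, dist_eq_norm, e1]
  have hb : ‖∫ y, ((f y / c : ℝ) : ℂ) • (ltr y ψ - ψ) ∂μ‖ ≤ ∫ y, f y / c * (ε / 2) ∂μ := by
    refine norm_integral_le_of_norm_le ((hfi.div_const c).mul_const _) (ae_of_all _ fun y => ?_)
    rw [norm_smul, Complex.norm_real, Real.norm_of_nonneg (div_nonneg (f01 y).1 hpos.le)]
    by_cases hy : y ∈ V
    · have h4 : dist (ltr y ψ) ψ < ε / 2 := hV hy
      rw [dist_eq_norm] at h4
      exact mul_le_mul_of_nonneg_left h4.le (div_nonneg (f01 y).1 hpos.le)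
    · have h5 : f y = 0 := f0 hy
      rw [h5, zero_div, zero_mul, zero_mul]
  refine hb.trans_lt ?_
  rw [integral_mul_const, integral_div, ← hc, div_self hpos.ne', one_mul]
  exact half_lt_self hε

end conv

section cs

variable {X : Type} [MeasurableSpace X] {μ : Measure X}

/-- Cauchy-Schwarz on a set of finite measure -/
theorem sq_integral_le {B : Set X} (hB : μ B ≠ ⊤) {g : X → ℝ} (hg : IntegrableOn g B μ)
    (hg2 : IntegrableOn (fun x => g x ^ 2) B μ) :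
    (∫ x in B, g x ∂μ) ^ 2 ≤ (μ B).toReal * ∫ x in B, g x ^ 2 ∂μ := by
  obtain ⟨a, ha⟩ : ∃ a, a = ∫ x in B, g x ∂μ := ⟨_, rfl⟩
  obtain ⟨b, hb⟩ : ∃ b, b = ∫ x in B, g x ^ 2 ∂μ := ⟨_, rfl⟩
  obtain ⟨v, hv⟩ : ∃ v, v = (μ B).toReal := ⟨_, rfl⟩
  have hv0 : 0 ≤ v := hv ▸ ENNReal.toReal_nonneg
  have key : ∀ t : ℝ, 0 ≤ b - 2 * t * a + t ^ 2 * v := by
    intro t
    have h1 : 0 ≤ ∫ x in B, (g x - t) ^ 2 ∂μ := integral_nonneg fun x => sq_nonneg _
    have hc : IntegrableOn (fun _ : X => t ^ 2) B μ := integrableOn_const hB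
    have h2 : ∫ x in B, (g x - t) ^ 2 ∂μ = b - 2 * t * a + t ^ 2 * v := by
      have e : (fun x => (g x - t) ^ 2) = fun x => g x ^ 2 - (2 * t) * g x + t ^ 2 := by
        funext x
        ring
      have i1 : IntegrableOn (fun x => (2 * t) * g x) B μ := hg.const_mul _
      have i2 : IntegrableOn (fun x => g x ^ 2 - (2 * t) * g x) B μ := hg2.sub i1
      have s1 : ∫ x in B, (g x ^ 2 - (2 * t) * g x + t ^ 2) ∂μ =
          (∫ x in B, (g x ^ 2 - (2 * t) * g x) ∂μ) + ∫ x in B, t ^ 2 ∂μ := integral_add i2 hc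
      have s2 : ∫ x in B, (g x ^ 2 - (2 * t) * g x) ∂μ =
          (∫ x in B, g x ^ 2 ∂μ) - ∫ x in B, (2 * t) * g x ∂μ := integral_sub hg2 i1
      rw [e, s1, s2, integral_const_mul, ← ha, ← hb, setIntegral_const, hv, smul_eq_mul,
        Measure.real, mul_comm (μ B).toReal]
    rw [h2] at h1
    exact h1
  rw [← ha, ← hb, ← hv]
  rcases hv0.eq_or_lt with h0 | h0
  · have ha0 : a = 0 := by
      have h3 : μ B = 0 := by
        rcases (ENNReal.toReal_eq_zero_iff _).1 (hv.symm.trans h0.symm) with h | h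
        · exact h
        · exact absurd h hB
      rw [ha, Measure.restrict_eq_zero.2 h3, integral_zero_measure]
    rw [ha0, ← h0]
    norm_num
  · have h4 := key (a / v)
    have h5 : b - 2 * (a / v) * a + (a / v) ^ 2 * v = b - a ^ 2 / v := by
      field_simp
      ring
    rw [h5] at h4
    have h6 : a ^ 2 / v ≤ b := by linarith
    rw [div_le_iff₀ h0] at h6
    linarith

end cs

section count

variable {G : Type} [Group G] [TopologicalSpace G] [IsTopologicalGroup G] [T2Space G]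
  [MeasurableSpace G] [BorelSpace G] (μ : Measure G) [IsFiniteMeasureOnCompacts μ]
  [μ.IsMulLeftInvariant] {K : Type} [NormedAddCommGroup K] [InnerProductSpace ℂ K]
  [CompleteSpace K]

/-- **counting with an abstract letter**: a bound for fixed vectors gives a bound for the vectors
`Q (p γ)⁻¹φ Ω`, `p γ` in a compact set, `φ` a convolution. -/
theorem count_conv (Q : C₀(G, ℂ) →⋆ₙₐ[ℂ] (K →L[ℂ] K)) {h : G → ℂ} (hc : Continuous h)
    (hs : HasCompactSupport h) (ψ : C₀(G, ℂ)) {C : Set G} (hC : IsCompact C) :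
    ∃ D : ℝ, 0 ≤ D ∧ ∀ {Γ : Type} (S : Finset Γ) (p : Γ → G) (F : Γ → (K →L[ℂ] K)) (B : ℝ),
      (∀ γ ∈ S, p γ ∈ C) → 0 ≤ B → (∀ x : K, ∑ γ ∈ S, ‖F γ x‖ ^ 2 ≤ B * ‖x‖ ^ 2) → ∀ Ω : K,
      ∑ γ ∈ S, ‖F γ (Q (ltr (p γ)⁻¹ (conv μ h ψ)) Ω)‖ ^ 2 ≤ B * D * ‖Ω‖ ^ 2 := by
  obtain ⟨M, hM⟩ : ∃ M : ℝ, ∀ x, ‖h x‖ ≤ M := hs.exists_bound_of_continuous hc
  have hM0 : 0 ≤ M := (norm_nonneg _).trans (hM 1)
  obtain ⟨A, hA⟩ : ∃ A : Set G, A = C⁻¹ * tsupport h := ⟨_, rfl⟩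
  have hAc : IsCompact A := hA ▸ hC.inv.mul hs
  have hAm : MeasurableSet A := hAc.measurableSet
  have hAf : μ A ≠ ⊤ := hAc.measure_lt_top.ne
  obtain ⟨v, hv⟩ : ∃ v, v = (μ A).toReal := ⟨_, rfl⟩
  have hv0 : 0 ≤ v := hv ▸ ENNReal.toReal_nonneg
  refine ⟨M ^ 2 * v ^ 2 * ‖ψ‖ ^ 2, by positivity, ?_⟩
  intro Γ S p F B hp hB hF Ω
  let L : C₀(G, ℂ) →L[ℂ] K := LinearMap.mkContinuous
    { toFun := fun φ => Q φ Ω
      map_add' := fun φ φ' => by rw [map_add]; rfl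
      map_smul' := fun c φ => by rw [map_smul]; rfl } ‖Ω‖ fun φ => by
    change ‖Q φ Ω‖ ≤ ‖Ω‖ * ‖φ‖
    refine ((Q φ).le_opNorm Ω).trans ?_
    rw [mul_comm]
    exact mul_le_mul_of_nonneg_left (NonUnitalStarAlgHom.norm_apply_le Q φ) (norm_nonneg _)
  have hL : ∀ φ, L φ = Q φ Ω := fun φ => rfl
  obtain ⟨x, hx⟩ : ∃ x : G → K, x = fun y => L (ltr y ψ) := ⟨_, rfl⟩
  have hxc : Continuous x := hx ▸ L.continuous.comp (continuous_ltr ψ)
  have hxb : ∀ y, ‖x y‖ ≤ ‖ψ‖ * ‖Ω‖ := by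
    intro y
    rw [hx]
    change ‖Q (ltr y ψ) Ω‖ ≤ _
    refine ((Q (ltr y ψ)).le_opNorm Ω).trans ?_
    exact mul_le_mul_of_nonneg_right ((NonUnitalStarAlgHom.norm_apply_le Q _).trans
      (norm_ltr_le y ψ)) (norm_nonneg _)
  have hint : ∀ γ, IntegrableOn (fun y => ‖F γ (x y)‖) A μ := fun γ =>
    ((F γ).continuous.comp hxc).norm.continuousOn.integrableOn_compact hAc
  have hint2 : ∀ γ, IntegrableOn (fun y => ‖F γ (x y)‖ ^ 2) A μ := fun γ =>
    (((F γ).continuous.comp hxc).norm.pow 2).continuousOn.integrableOn_compact hAc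
  have key : ∀ γ ∈ S, ‖F γ (Q (ltr (p γ)⁻¹ (conv μ h ψ)) Ω)‖ ≤ M * ∫ y in A, ‖F γ (x y)‖ ∂μ := by
    intro γ hγ
    have e1 : F γ (Q (ltr (p γ)⁻¹ (conv μ h ψ)) Ω) = ∫ y, h (p γ * y) • F γ (x y) ∂μ := by
      have hc' : Continuous fun y => h (p γ * y) := hc.comp (continuous_const.mul continuous_id)
      have hs' : HasCompactSupport fun y => h (p γ * y) := hs.comp_homeomorph (Homeomorph.mulLeft (p γ))
      rw [ltr_conv μ hc hs ψ, inv_inv, ← hL,
        ← ContinuousLinearMap.integral_comp_comm L (integrable_conv μ hc' hs' ψ),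
        ← ContinuousLinearMap.integral_comp_comm (F γ)
          (L.integrable_comp (integrable_conv μ hc' hs' ψ))]
      refine integral_congr_ae (ae_of_all _ fun y => ?_)
      change F γ (L (h (p γ * y) • ltr y ψ)) = h (p γ * y) • F γ (x y)
      rw [map_smul, map_smul, hx]
    have e2 : ∫ y, h (p γ * y) • F γ (x y) ∂μ = ∫ y in A, h (p γ * y) • F γ (x y) ∂μ := by
      refine (setIntegral_eq_integral_of_forall_compl_eq_zero fun y hy => ?_).symm
      have h1 : h (p γ * y) = 0 := by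
        by_contra h2
        apply hy
        rw [hA]
        exact ⟨(p γ)⁻¹, Set.inv_mem_inv.2 (hp γ hγ), p γ * y, subset_tsupport _ h2,
          inv_mul_cancel_left _ _⟩
      rw [h1, zero_smul]
    rw [e1, e2]
    calc ‖∫ y in A, h (p γ * y) • F γ (x y) ∂μ‖ ≤ ∫ y in A, M * ‖F γ (x y)‖ ∂μ := by
          refine norm_integral_le_of_norm_le ((hint γ).const_mul M) (ae_of_all _ fun y => ?_)
          rw [norm_smul]
          exact mul_le_mul_of_nonneg_right (hM _) (norm_nonneg _)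
      _ = _ := integral_const_mul _ _
  have key2 : ∀ γ ∈ S, ‖F γ (Q (ltr (p γ)⁻¹ (conv μ h ψ)) Ω)‖ ^ 2 ≤
      M ^ 2 * v * ∫ y in A, ‖F γ (x y)‖ ^ 2 ∂μ := by
    intro γ hγ
    have h1 := sq_integral_le hAf (hint γ) (hint2 γ)
    calc ‖F γ (Q (ltr (p γ)⁻¹ (conv μ h ψ)) Ω)‖ ^ 2
        ≤ (M * ∫ y in A, ‖F γ (x y)‖ ∂μ) ^ 2 := by
          exact pow_le_pow_left₀ (norm_nonneg _) (key γ hγ) 2
      _ = M ^ 2 * (∫ y in A, ‖F γ (x y)‖ ∂μ) ^ 2 := by ring
      _ ≤ M ^ 2 * (v * ∫ y in A, ‖F γ (x y)‖ ^ 2 ∂μ) := by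
          rw [hv]
          exact mul_le_mul_of_nonneg_left h1 (sq_nonneg M)
      _ = _ := by ring
  have h3 : ∑ γ ∈ S, ∫ y in A, ‖F γ (x y)‖ ^ 2 ∂μ ≤ v * (B * (‖ψ‖ * ‖Ω‖) ^ 2) := by
    rw [← integral_finsetSum S fun γ _ => hint2 γ]
    calc ∫ y in A, ∑ γ ∈ S, ‖F γ (x y)‖ ^ 2 ∂μ ≤ ∫ y in A, B * (‖ψ‖ * ‖Ω‖) ^ 2 ∂μ := by
          refine integral_mono_of_nonneg (ae_of_all _ fun y => Finset.sum_nonneg fun γ _ =>
            sq_nonneg _) (integrableOn_const hAf) (ae_of_all _ fun y => ?_)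
          refine (hF (x y)).trans (mul_le_mul_of_nonneg_left ?_ hB)
          exact pow_le_pow_left₀ (norm_nonneg _) (hxb y) 2
      _ = _ := by
          rw [setIntegral_const, smul_eq_mul, hv]
          rfl
  calc ∑ γ ∈ S, ‖F γ (Q (ltr (p γ)⁻¹ (conv μ h ψ)) Ω)‖ ^ 2
      ≤ ∑ γ ∈ S, M ^ 2 * v * ∫ y in A, ‖F γ (x y)‖ ^ 2 ∂μ := Finset.sum_le_sum key2
    _ = M ^ 2 * v * ∑ γ ∈ S, ∫ y in A, ‖F γ (x y)‖ ^ 2 ∂μ := by rw [Finset.mul_sum]
    _ ≤ M ^ 2 * v * (v * (B * (‖ψ‖ * ‖Ω‖) ^ 2)) := by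
        exact mul_le_mul_of_nonneg_left h3 (by positivity)
    _ = _ := by ring

end count

end Vale.Agent.P092.H943.Mx
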