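import Vale.Agent.P092.H943.ProdEnd
import Vale.Agent.P092.H958.AmpD
import Vale.Agent.P092.H295.Trl

/-!
P092 (helper943), [MIX] (M4): a calculus of `C₀(T)` in the commutant of `W`, covariant for a
homomorphism `p : Γ →* T` with DISCRETE image, and commuting with a set `S` of elements of the
source group, keeps `p` tight on `S`: the masks `{γ | p γ ∉ C}` are small on `π g Ω`, `g ∈ S`,
uniformly. All amplifications.
-/

set_option linter.all false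

open scoped InnerProductSpace ENNReal Topology ZeroAtInfty Pointwise
open Filter Topology ContinuousLinearMap MeasureTheory

namespace Vale.Agent.P092.H943.Mx

open Vale.Agent.P092.H295
open Vale.Agent.P092.RC (Cm TRN TRNF PicF)
open Vale.Agent.P092.SD (MsF)

/-! ### Cut-offs -/

section cut

variable {T : Type} [TopologicalSpace T] [T2Space T] [LocallyCompactSpace T] {K : Type}
  [NormedAddCommGroup K] [InnerProductSpace ℂ K] [CompleteSpace K]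

/-- `ξ` is almost fixed by all cut-offs which are `1` on a large compact set -/
def Cut (Q : C₀(T, ℂ) →⋆ₙₐ[ℂ] (K →L[ℂ] K)) (ξ : K) : Prop :=
  ∀ ε : ℝ, 0 < ε → ∃ C : Set T, IsCompact C ∧ ∀ f : C₀(T, ℂ), (∀ x ∈ C, f x = 1) →
    (∀ x, ‖f x‖ ≤ 1) → ‖ξ - Q f ξ‖ ≤ ε

theorem norm_Q_le (Q : C₀(T, ℂ) →⋆ₙₐ[ℂ] (K →L[ℂ] K)) {f : C₀(T, ℂ)} (hf : ∀ x, ‖f x‖ ≤ 1)
    (ξ : K) : ‖Q f ξ‖ ≤ ‖ξ‖ := by
  refine ((Q f).le_opNorm ξ).trans ?_
  have h1 : ‖Q f‖ ≤ 1 := (NonUnitalStarAlgHom.norm_apply_le Q f).trans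
    (norm_le_of_forall zero_le_one hf)
  calc ‖Q f‖ * ‖ξ‖ ≤ 1 * ‖ξ‖ := mul_le_mul_of_nonneg_right h1 (norm_nonneg _)
    _ = ‖ξ‖ := one_mul _

theorem Cut.range (Q : C₀(T, ℂ) →⋆ₙₐ[ℂ] (K →L[ℂ] K)) (ψ : C₀(T, ℂ)) (η : K) :
    Cut Q (Q ψ η) := by
  intro ε hε
  obtain ⟨δ, hδ, hδ'⟩ : ∃ δ : ℝ, 0 < δ ∧ 2 * δ * ‖η‖ ≤ ε := by
    refine ⟨ε / (2 * (‖η‖ + 1)), by positivity, ?_⟩
    have h1 : 2 * (ε / (2 * (‖η‖ + 1))) * ‖η‖ = ε * (‖η‖ / (‖η‖ + 1)) := by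
      field_simp
    rw [h1]
    have h2 : ‖η‖ / (‖η‖ + 1) ≤ 1 := by
      rw [div_le_one (by positivity)]
      linarith
    nlinarith
  have h1 : ∀ᶠ x in cocompact T, ‖ψ x‖ < δ := by
    have h2 := ψ.zero_at_infty'.norm
    rw [norm_zero] at h2
    exact h2.eventually (gt_mem_nhds hδ)
  obtain ⟨C, hC, hC'⟩ := mem_cocompact.1 h1
  refine ⟨C, hC, fun f hf1 hf => ?_⟩
  have e1 : Q ψ η - Q f (Q ψ η) = Q (ψ - f * ψ) η := by
    rw [map_sub, map_mul]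
    rfl
  rw [e1]
  have h3 : ‖ψ - f * ψ‖ ≤ 2 * δ := by
    refine norm_le_of_forall (by positivity) fun x => ?_
    change ‖ψ x - f x * ψ x‖ ≤ 2 * δ
    by_cases hx : x ∈ C
    · rw [hf1 x hx, one_mul, sub_self, norm_zero]
      positivity
    · have h4 : ‖ψ x‖ < δ := hC' hx
      calc ‖ψ x - f x * ψ x‖ ≤ ‖ψ x‖ + ‖f x * ψ x‖ := norm_sub_le _ _
        _ ≤ ‖ψ x‖ + 1 * ‖ψ x‖ := by
            rw [norm_mul]
            exact add_le_add_right (mul_le_mul_of_nonneg_right (hf x) (norm_nonneg _)) _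
        _ ≤ 2 * δ := by linarith
  calc ‖Q (ψ - f * ψ) η‖ ≤ ‖Q (ψ - f * ψ)‖ * ‖η‖ := (Q (ψ - f * ψ)).le_opNorm η
    _ ≤ 2 * δ * ‖η‖ := mul_le_mul_of_nonneg_right
        ((NonUnitalStarAlgHom.norm_apply_le Q _).trans h3) (norm_nonneg _)
    _ ≤ ε := hδ'

theorem Cut.add {Q : C₀(T, ℂ) →⋆ₙₐ[ℂ] (K →L[ℂ] K)} {ξ η : K} (h1 : Cut Q ξ) (h2 : Cut Q η) :
    Cut Q (ξ + η) := by
  intro ε hε
  obtain ⟨C, hC, h3⟩ := h1 (ε / 2) (half_pos hε)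
  obtain ⟨D, hD, h4⟩ := h2 (ε / 2) (half_pos hε)
  refine ⟨C ∪ D, hC.union hD, fun f hf1 hf => ?_⟩
  have e1 : ξ + η - Q f (ξ + η) = (ξ - Q f ξ) + (η - Q f η) := by
    rw [map_add]
    abel
  rw [e1]
  refine (norm_add_le _ _).trans ?_
  have h5 := h3 f (fun x hx => hf1 x (Or.inl hx)) hf
  have h6 := h4 f (fun x hx => hf1 x (Or.inr hx)) hf
  linarith

theorem Cut.smul {Q : C₀(T, ℂ) →⋆ₙₐ[ℂ] (K →L[ℂ] K)} {ξ : K} (c : ℂ) (h1 : Cut Q ξ) :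
    Cut Q (c • ξ) := by
  intro ε hε
  obtain ⟨C, hC, h3⟩ := h1 (ε / (‖c‖ + 1)) (by positivity)
  refine ⟨C, hC, fun f hf1 hf => ?_⟩
  have e1 : c • ξ - Q f (c • ξ) = c • (ξ - Q f ξ) := by
    rw [map_smul, smul_sub]
  rw [e1, norm_smul]
  have h4 := h3 f hf1 hf
  have h5 : ‖c‖ * ‖ξ - Q f ξ‖ ≤ (‖c‖ + 1) * (ε / (‖c‖ + 1)) :=
    mul_le_mul (by linarith) h4 (norm_nonneg _) (by positivity)
  rwa [mul_div_cancel₀ _ (by positivity)] at h5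

theorem Cut.zero (Q : C₀(T, ℂ) →⋆ₙₐ[ℂ] (K →L[ℂ] K)) : Cut Q 0 := by
  intro ε hε
  refine ⟨∅, isCompact_empty, fun f _ _ => ?_⟩
  rw [map_zero, sub_zero, norm_zero]
  exact hε.le

theorem Cut.closed {Q : C₀(T, ℂ) →⋆ₙₐ[ℂ] (K →L[ℂ] K)} {ξ : K}
    (h : ξ ∈ closure {η | Cut Q η}) : Cut Q ξ := by
  intro ε hε
  obtain ⟨η, hη, h1⟩ := Metric.mem_closure_iff.1 h (ε / 4) (by positivity)
  obtain ⟨C, hC, h2⟩ := hη (ε / 4) (by positivity)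
  refine ⟨C, hC, fun f hf1 hf => ?_⟩
  have h3 := h2 f hf1 hf
  rw [dist_eq_norm] at h1
  have e1 : ξ - Q f ξ = (ξ - η) + (η - Q f η) - Q f (ξ - η) := by
    rw [map_sub]
    abel
  rw [e1]
  have h4 := norm_Q_le Q hf (ξ - η)
  have h5 := norm_sub_le ((ξ - η) + (η - Q f η)) (Q f (ξ - η))
  have h6 := norm_add_le (ξ - η) (η - Q f η)
  linarith

/-- a nondegenerate calculus: every vector is almost fixed by the cut-offs -/
theorem cut_all {Q : C₀(T, ℂ) →⋆ₙₐ[ℂ] (K →L[ℂ] K)} (nd : ∀ ξ, (∀ ψ, Q ψ ξ = 0) → ξ = 0)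
    (ξ : K) : Cut Q ξ := by
  let V : Submodule ℂ K :=
    { carrier := {η | Cut Q η}
      add_mem' := fun h1 h2 => h1.add h2
      zero_mem' := Cut.zero Q
      smul_mem' := fun c _ h => h.smul c }
  have h1 : V.topologicalClosure = ⊤ := by
    rw [Submodule.topologicalClosure_eq_top_iff, Submodule.eq_bot_iff]
    intro η hη
    refine nd η fun ψ => ?_
    rw [← inner_self_eq_zero (𝕜 := ℂ)]
    have h2 : Q (star ψ) (Q ψ η) ∈ V := Cut.range Q (star ψ) (Q ψ η)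
    have h3 := (Submodule.mem_orthogonal V η).1 hη _ h2
    rw [← adj_map, adjoint_inner_left] at h3
    exact h3
  have h2 : ξ ∈ closure (V : Set K) := by
    have h3 : ξ ∈ V.topologicalClosure := by
      rw [h1]
      exact Submodule.mem_top
    exact h3
  exact Cut.closed h2

/-- one cut-off with compact support for finitely many vectors -/
theorem exists_cut {Q : C₀(T, ℂ) →⋆ₙₐ[ℂ] (K →L[ℂ] K)} (nd : ∀ ξ, (∀ ψ, Q ψ ξ = 0) → ξ = 0)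
    {κ : Type} [Fintype κ] (Ω : κ → K) {ε : ℝ} (hε : 0 < ε) :
    ∃ f : C₀(T, ℂ), HasCompactSupport f ∧ (∀ x, ‖f x‖ ≤ 1) ∧ ∀ l, ‖Ω l - Q f (Ω l)‖ ≤ ε := by
  choose C hC h1 using fun l => cut_all nd (Ω l) ε hε
  have hK : IsCompact (⋃ l, C l) := isCompact_iUnion hC
  obtain ⟨g, g1, g0, gs, g01⟩ := exists_continuous_one_zero_of_isCompact hK
    (isClosed_empty (X := T)) (Set.disjoint_empty _)
  have hc : Continuous fun x : T => ((g x : ℝ) : ℂ) :=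
    Complex.continuous_ofReal.comp g.continuous
  have hs : HasCompactSupport fun x : T => ((g x : ℝ) : ℂ) := by
    refine gs.mono fun y hy => ?_
    rw [Function.mem_support] at hy ⊢
    intro h0
    apply hy
    rw [h0, Complex.ofReal_zero]
  let f : C₀(T, ℂ) := ⟨⟨_, hc⟩, hs.is_zero_at_infty⟩
  have hf : ∀ x, ‖f x‖ ≤ 1 := fun x => by
    change ‖((g x : ℝ) : ℂ)‖ ≤ 1
    rw [Complex.norm_real, Real.norm_of_nonneg (g01 x).1]
    exact (g01 x).2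
  refine ⟨f, hs, hf, fun l => h1 l f (fun x hx => ?_) hf⟩
  change ((g x : ℝ) : ℂ) = 1
  have h2 : g x = 1 := g1 (Set.mem_iUnion.2 ⟨l, hx⟩)
  rw [h2, Complex.ofReal_one]

end cut

/-! ### Counting -/

section cnt

variable {T : Type} [Group T] [TopologicalSpace T] [IsTopologicalGroup T] {K : Type}
  [NormedAddCommGroup K] [InnerProductSpace ℂ K] [CompleteSpace K]

/-- bounded overlap of the translates -/
theorem sum_sq_le (Q : C₀(T, ℂ) →⋆ₙₐ[ℂ] (K →L[ℂ] K)) {f : C₀(T, ℂ)} (hf : ∀ x, ‖f x‖ ≤ 1)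
    {n : ℕ} (P : Finset T) (hn : ∀ y, (P.filter fun d => f (d * y) ≠ 0).card ≤ n) (ξ : K) :
    ∑ d ∈ P, ‖Q (ltr d⁻¹ f) ξ‖ ^ 2 ≤ n * ‖ξ‖ ^ 2 := by
  classical
  obtain ⟨F, hF⟩ : ∃ F : C₀(T, ℂ), F = ∑ d ∈ P, star (ltr d⁻¹ f) * ltr d⁻¹ f := ⟨_, rfl⟩
  have h1 : ((∑ d ∈ P, ‖Q (ltr d⁻¹ f) ξ‖ ^ 2 : ℝ) : ℂ) = ⟪ξ, Q F ξ⟫_ℂ := by
    rw [hF, map_sum, ContinuousLinearMap.sum_apply, inner_sum, Complex.ofReal_sum]
    exact Finset.sum_congr rfl fun d _ => norm_sq_eq Q _ ξ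
  have h2 : ‖F‖ ≤ n := by
    refine norm_le_of_forall (Nat.cast_nonneg n) fun y => ?_
    have e1 : F y = ∑ d ∈ P, ((‖f (d * y)‖ ^ 2 : ℝ) : ℂ) := by
      have h3 : ∀ s : Finset T, (∑ d ∈ s, star (ltr d⁻¹ f) * ltr d⁻¹ f : C₀(T, ℂ)) y =
          ∑ d ∈ s, ((‖f (d * y)‖ ^ 2 : ℝ) : ℂ) := by
        intro s
        induction s using Finset.induction_on with
        | empty => rfl
        | insert a s ha ih =>
          rw [Finset.sum_insert ha, Finset.sum_insert ha, ← ih]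
          change star (f (a⁻¹⁻¹ * y)) * f (a⁻¹⁻¹ * y) + _ = _
          rw [inv_inv, Complex.star_def, ← Complex.normSq_eq_conj_mul_self,
            Complex.normSq_eq_norm_sq]
          rfl
      rw [hF]
      exact h3 P
    rw [e1, ← Complex.ofReal_sum, Complex.norm_real, Real.norm_of_nonneg
      (Finset.sum_nonneg fun d _ => sq_nonneg _)]
    calc ∑ d ∈ P, ‖f (d * y)‖ ^ 2 = ∑ d ∈ P.filter (fun d => f (d * y) ≠ 0), ‖f (d * y)‖ ^ 2 := by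
          rw [Finset.sum_filter]
          refine Finset.sum_congr rfl fun d _ => ?_
          split_ifs with h4
          · rfl
          · rw [not_not] at h4
            rw [h4, norm_zero]
            norm_num
      _ ≤ ∑ d ∈ P.filter (fun d => f (d * y) ≠ 0), (1 : ℝ) :=
          Finset.sum_le_sum fun d _ => pow_le_one₀ (norm_nonneg _) (hf _)
      _ = ((P.filter fun d => f (d * y) ≠ 0).card : ℝ) := by
          rw [Finset.sum_const, nsmul_eq_mul, mul_one]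
      _ ≤ n := by exact_mod_cast hn y
  have h3 : ∑ d ∈ P, ‖Q (ltr d⁻¹ f) ξ‖ ^ 2 = (⟪ξ, Q F ξ⟫_ℂ).re := by
    rw [← h1, Complex.ofReal_re]
  rw [h3]
  calc (⟪ξ, Q F ξ⟫_ℂ).re ≤ ‖⟪ξ, Q F ξ⟫_ℂ‖ := Complex.re_le_norm _
    _ ≤ ‖ξ‖ * ‖Q F ξ‖ := norm_inner_le_norm _ _
    _ ≤ ‖ξ‖ * (n * ‖ξ‖) := by
        refine mul_le_mul_of_nonneg_left ?_ (norm_nonneg _)
        refine ((Q F).le_opNorm ξ).trans (mul_le_mul_of_nonneg_right ?_ (norm_nonneg _))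
        exact (NonUnitalStarAlgHom.norm_apply_le Q F).trans h2
    _ = n * ‖ξ‖ ^ 2 := by ring

/-- the overlap number of the translates by a discrete subgroup -/
theorem card_le {D : Subgroup T} {f : C₀(T, ℂ)} (hs : HasCompactSupport f)
    (hd : ∀ C : Set T, IsCompact C → ((D : Set T) ∩ C).Finite) :
    ∃ n : ℕ, ∀ P : Finset T, (∀ d ∈ P, d ∈ D) → ∀ y,
      (P.filter fun d => f (d * y) ≠ 0).card ≤ n := by
  classical
  have hA : IsCompact (tsupport f * (tsupport f)⁻¹) := hs.mul hs.inv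
  refine ⟨(hd _ hA).toFinset.card, fun P hP y => ?_⟩
  rcases (P.filter fun d => f (d * y) ≠ 0).eq_empty_or_nonempty with h0 | ⟨d₀, h0⟩
  · rw [h0]
    exact Nat.zero_le _
  · refine Finset.card_le_card_of_injOn (fun d => d * d₀⁻¹) (fun d hd' => ?_)
      fun a _ b _ hab => mul_right_cancel hab
    rw [Set.Finite.coe_toFinset]
    rw [Finset.mem_coe, Finset.mem_filter] at hd'
    rw [Finset.mem_filter] at h0
    refine ⟨D.mul_mem (hP d hd'.1) (D.inv_mem (hP d₀ h0.1)), ?_⟩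
    refine ⟨d * y, subset_tsupport _ hd'.2, (d₀ * y)⁻¹, Set.inv_mem_inv.2 (subset_tsupport _ h0.2),
      ?_⟩
    change d * y * (d₀ * y)⁻¹ = d * d₀⁻¹
    group

/-- the tails of the translates are small -/
theorem exists_tail (Q : C₀(T, ℂ) →⋆ₙₐ[ℂ] (K →L[ℂ] K)) {D : Subgroup T} {f : C₀(T, ℂ)}
    (hf : ∀ x, ‖f x‖ ≤ 1) (hs : HasCompactSupport f)
    (hd : ∀ C : Set T, IsCompact C → ((D : Set T) ∩ C).Finite) {κ : Type} [Fintype κ]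
    (Ω : κ → K) {ε : ℝ} (hε : 0 < ε) :
    ∃ P₀ : Finset T, ∀ P : Finset T, (∀ d ∈ P, d ∈ D) → Disjoint P P₀ →
      ∑ l, ∑ d ∈ P, ‖Q (ltr d⁻¹ f) (Ω l)‖ ^ 2 ≤ ε := by
  classical
  obtain ⟨n, hn⟩ := card_le hs hd
  let F : D → ℝ := fun d => ∑ l, ‖Q (ltr (d : T)⁻¹ f) (Ω l)‖ ^ 2
  have hF0 : ∀ d, 0 ≤ F d := fun d => Finset.sum_nonneg fun l _ => sq_nonneg _
  have hsum : Summable F := by
    refine summable_of_sum_le hF0 (c := ∑ l, n * ‖Ω l‖ ^ 2) fun u => ?_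
    change ∑ d ∈ u, ∑ l, ‖Q (ltr (d : T)⁻¹ f) (Ω l)‖ ^ 2 ≤ _
    rw [Finset.sum_comm]
    refine Finset.sum_le_sum fun l _ => ?_
    have h1 := sum_sq_le Q hf (u.map ⟨Subtype.val, Subtype.val_injective⟩)
      (hn _ fun d hd' => ?_) (Ω l)
    · rwa [Finset.sum_map] at h1
    · obtain ⟨a, _, rfl⟩ := Finset.mem_map.1 hd'
      exact a.2
  obtain ⟨s, hs'⟩ := (summable_iff_vanishing_norm.1 hsum) ε hε
  refine ⟨s.map ⟨Subtype.val, Subtype.val_injective⟩, fun P hP hdis => ?_⟩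
  have h1 := hs' (P.subtype (· ∈ D)) (by
    rw [Finset.disjoint_left]
    intro a ha ha'
    rw [Finset.mem_subtype] at ha
    exact Finset.disjoint_left.1 hdis ha (Finset.mem_map_of_mem _ ha'))
  rw [Real.norm_of_nonneg (Finset.sum_nonneg fun d _ => hF0 d)] at h1
  have h2 : ∑ d ∈ P.subtype (· ∈ D), F d = ∑ d ∈ P, ∑ l, ‖Q (ltr d⁻¹ f) (Ω l)‖ ^ 2 := by
    have h3 : P = (P.subtype (· ∈ D)).map ⟨Subtype.val, Subtype.val_injective⟩ := by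
      ext x
      rw [Finset.mem_map]
      constructor
      · intro hx
        exact ⟨⟨x, hP x hx⟩, Finset.mem_subtype.2 hx, rfl⟩
      · rintro ⟨a, ha, rfl⟩
        exact Finset.mem_subtype.1 ha
    conv_rhs => rw [h3, Finset.sum_map]
    rfl
  rw [Finset.sum_comm, ← h2]
  exact h1.le

end cnt

/-! ### Masks -/

section mask

variable {E Γ K κ : Type} [Group E] [TopologicalSpace E] [Group Γ] [NormedAddCommGroup K]
  [InnerProductSpace ℂ K] [CompleteSpace K] [Fintype κ] {π : E →* (K →L[ℂ] K)}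
  {lam : Γ →* (K →L[ℂ] K)} {W : Set (K →L[ℂ] K)} {Ω : κ → K} {m : Set Γ → (K →L[ℂ] K)}

theorem m_idem (hm : MsF lam W Ω m) (S : Set Γ) (ξ : K) : m S (m S ξ) = m S ξ := by
  change (m S * m S) ξ = m S ξ
  rw [← hm.inf, Set.inter_self]

theorem m_empty (hm : MsF lam W Ω m) : m ∅ = 0 := by
  have h1 : m (∅ : Set Γ) = m (Set.univ : Set Γ) * m (Set.univ : Set Γ)ᶜ := by
    rw [← hm.inf, Set.inter_compl_self]
  rw [h1, hm.compl, mul_sub, mul_one, ← hm.inf, Set.inter_self, sub_self]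

theorem m_sq (hm : MsF lam W Ω m) (S : Set Γ) (ξ : K) :
    ((‖m S ξ‖ ^ 2 : ℝ) : ℂ) = ⟪m S ξ, ξ⟫_ℂ := by
  have h1 : ⟪m S ξ, ξ⟫_ℂ = ⟪m S ξ, m S ξ⟫_ℂ := by
    conv_rhs => rw [← hm.adj S, ContinuousLinearMap.adjoint_inner_left, hm.adj, m_idem hm]
    rw [← hm.adj S, ContinuousLinearMap.adjoint_inner_left, hm.adj]
  rw [h1, inner_self_eq_norm_sq_to_K]
  push_cast
  rfl

/-- Bessel for the masks of points -/
theorem bessel (hm : MsF lam W Ω m) (F : Finset Γ) (ξ : K) :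
    ∑ γ ∈ F, ‖m {γ} ξ‖ ^ 2 ≤ ‖ξ‖ ^ 2 := by
  classical
  obtain ⟨η, hη⟩ : ∃ η : K, η = ∑ γ ∈ F, m {γ} ξ := ⟨_, rfl⟩
  obtain ⟨s, hs⟩ : ∃ s : ℝ, s = ∑ γ ∈ F, ‖m {γ} ξ‖ ^ 2 := ⟨_, rfl⟩
  have hs0 : 0 ≤ s := hs ▸ Finset.sum_nonneg fun γ _ => sq_nonneg _
  have h1 : ⟪η, ξ⟫_ℂ = ((s : ℝ) : ℂ) := by
    rw [hη, sum_inner, hs, Complex.ofReal_sum]
    exact Finset.sum_congr rfl fun γ _ => (m_sq hm {γ} ξ).symm
  have h2 : ⟪η, η⟫_ℂ = ((s : ℝ) : ℂ) := by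
    rw [hη, sum_inner, hs, Complex.ofReal_sum]
    refine Finset.sum_congr rfl fun γ hγ => ?_
    rw [inner_sum, Finset.sum_eq_single γ]
    · rw [inner_self_eq_norm_sq_to_K]
      push_cast
      rfl
    · intro b _ hb
      conv_lhs => rw [← hm.adj {γ}, ContinuousLinearMap.adjoint_inner_left]
      have h3 : m {γ} (m {b} ξ) = 0 := by
        change (m {γ} * m {b}) ξ = 0
        rw [← hm.inf, Set.singleton_inter_eq_empty.2 (fun h => hb (Set.mem_singleton_iff.1 h).symm),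
          m_empty hm]
        rfl
      rw [h3, inner_zero_right]
    · intro h
      exact absurd hγ h
  have h3 : ‖η‖ ^ 2 = s := by
    have h4 := inner_self_eq_norm_sq_to_K (𝕜 := ℂ) η
    rw [h2] at h4
    have h5 : ((s : ℝ) : ℂ) = ((‖η‖ ^ 2 : ℝ) : ℂ) := by
      rw [h4]
      push_cast
      rfl
    exact (Complex.ofReal_injective h5).symm
  have h4 : s ≤ ‖η‖ * ‖ξ‖ := by
    have h5 : s = ‖⟪η, ξ⟫_ℂ‖ := by
      rw [h1, Complex.norm_real, Real.norm_of_nonneg hs0]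
    rw [h5]
    exact norm_inner_le_norm _ _
  rw [← hs]
  have h5 : ‖η‖ ≤ ‖ξ‖ := by
    by_cases h0 : ‖η‖ = 0
    · rw [h0]
      exact norm_nonneg _
    · have h6 : ‖η‖ * ‖η‖ ≤ ‖η‖ * ‖ξ‖ := by
        rw [← sq, h3]
        exact h4
      exact le_of_mul_le_mul_left h6 (lt_of_le_of_ne (norm_nonneg _) (Ne.symm h0))
  rw [← h3]
  exact pow_le_pow_left₀ (norm_nonneg _) h5 2

open Classical in
theorem m_lam (hm : MsF lam W Ω m) (S : Set Γ) (γ : Γ) (l : κ) :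
    m S (lam γ (Ω l)) = if γ ∈ S then lam γ (Ω l) else 0 := by
  classical
  have hi : lam γ⁻¹ * lam γ = 1 := by rw [← map_mul, inv_mul_cancel, map_one]
  have h0 : m {γ} * lam γ = lam γ * m {1} := by
    have h2 : m {γ} = lam γ * m {1} * lam γ⁻¹ := by
      rw [hm.cov γ {1}, Set.image_singleton, mul_one]
    rw [h2, mul_assoc, hi, mul_one]
  have h1 : lam γ (Ω l) = m {γ} (lam γ (Ω l)) := by
    change lam γ (Ω l) = (m {γ} * lam γ) (Ω l)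
    rw [h0]
    change lam γ (Ω l) = lam γ (m {1} (Ω l))
    rw [hm.om l]
  conv_lhs => rw [h1]
  change (m S * m {γ}) (lam γ (Ω l)) = _
  rw [← hm.inf]
  split_ifs with h
  · rw [Set.inter_eq_right.2 (Set.singleton_subset_iff.2 h), ← h1]
  · have e : S ∩ {γ} = ∅ := by
      ext x
      constructor
      · rintro ⟨h2, h3⟩
        rw [Set.mem_singleton_iff.1 h3] at h2
        exact absurd h2 h
      · intro h2
        exact absurd h2 (Set.notMem_empty x)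
    rw [e, m_empty hm]
    rfl

end mask

/-! ### Tightness -/

section tight

variable {E Γ K κ : Type} [Group E] [TopologicalSpace E] [Group Γ] [NormedAddCommGroup K]
  [InnerProductSpace ℂ K] [CompleteSpace K] [Fintype κ] {π : E →* (K →L[ℂ] K)}
  {lam : Γ →* (K →L[ℂ] K)} {W : Set (K →L[ℂ] K)} {Ω : κ → K} {m : Set Γ → (K →L[ℂ] K)}
  {T : Type} [Group T] [TopologicalSpace T] [IsTopologicalGroup T]

theorem iso_pi (hp : PicF π lam W Ω) (g : E) (ξ : K) : ‖π g ξ‖ = ‖ξ‖ := by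
  have h1 : ⟪π g ξ, π g ξ⟫_ℂ = ⟪ξ, ξ⟫_ℂ := by
    have h2 : adjoint (π g) * π g = 1 := by
      rw [hp.adjP, ← map_mul, inv_mul_cancel, map_one]
    rw [← ContinuousLinearMap.adjoint_inner_right]
    change ⟪ξ, (adjoint (π g) * π g) ξ⟫_ℂ = _
    rw [h2]
    rfl
  have h2 : ‖π g ξ‖ ^ 2 = ‖ξ‖ ^ 2 := by
    have h3 : (((‖π g ξ‖ ^ 2 : ℝ)) : ℂ) = ((‖ξ‖ ^ 2 : ℝ) : ℂ) := by
      rw [inner_self_eq_norm_sq_to_K, inner_self_eq_norm_sq_to_K] at h1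
      push_cast
      exact h1
    exact Complex.ofReal_injective h3
  exact (sq_eq_sq₀ (norm_nonneg _) (norm_nonneg _)).1 h2

theorem iso_lam (hp : PicF π lam W Ω) (g : Γ) (ξ : K) : ‖lam g ξ‖ = ‖ξ‖ := by
  have h1 : ⟪lam g ξ, lam g ξ⟫_ℂ = ⟪ξ, ξ⟫_ℂ := by
    have h2 : adjoint (lam g) * lam g = 1 := by
      rw [hp.adjL, ← map_mul, inv_mul_cancel, map_one]
    rw [← ContinuousLinearMap.adjoint_inner_right]
    change ⟪ξ, (adjoint (lam g) * lam g) ξ⟫_ℂ = _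
    rw [h2]
    rfl
  have h2 : ‖lam g ξ‖ ^ 2 = ‖ξ‖ ^ 2 := by
    have h3 : (((‖lam g ξ‖ ^ 2 : ℝ)) : ℂ) = ((‖ξ‖ ^ 2 : ℝ) : ℂ) := by
      rw [inner_self_eq_norm_sq_to_K, inner_self_eq_norm_sq_to_K] at h1
      push_cast
      exact h1
    exact Complex.ofReal_injective h3
  exact (sq_eq_sq₀ (norm_nonneg _) (norm_nonneg _)).1 h2

theorem enorm_sq (ξ : K) : ‖ξ‖ₑ ^ 2 = ENNReal.ofReal (‖ξ‖ ^ 2) := by
  rw [← ofReal_norm_eq_enorm, ENNReal.ofReal_pow (norm_nonneg _)]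

open Classical in
/-- the terms of the trace sum -/
theorem term_eq (hp : PicF π lam W Ω) (hm : MsF lam W Ω m) {p : Γ →* T}
    {Q : C₀(T, ℂ) →⋆ₙₐ[ℂ] (K →L[ℂ] K)}
    (cov : ∀ γ (ψ ψ' : C₀(T, ℂ)), (∀ x, ψ' x = ψ ((p γ)⁻¹ * x)) →
      lam γ * Q ψ * lam γ⁻¹ = Q ψ') (g : E) (ψ : C₀(T, ℂ)) (S' : Set Γ) (γ : Γ) (l : κ) :
    ‖(π g * m {1} * π g⁻¹ * (Q ψ * m S')) (lam γ (Ω l))‖ =
      if γ ∈ S' then ‖m {γ⁻¹} (π g⁻¹ (Q (ltr (p γ)⁻¹ ψ) (Ω l)))‖ else 0 := by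
  classical
  have hi : lam γ * lam γ⁻¹ = 1 := by rw [← map_mul, mul_inv_cancel, map_one]
  have hi' : lam γ⁻¹ * lam γ = 1 := by rw [← map_mul, inv_mul_cancel, map_one]
  change ‖π g (m {1} (π g⁻¹ (Q ψ (m S' (lam γ (Ω l))))))‖ = _
  rw [m_lam hm]
  split_ifs with h
  · have h1 : Q ψ * lam γ = lam γ * Q (ltr (p γ)⁻¹ ψ) := by
      have h2 := cov γ⁻¹ ψ (ltr (p γ)⁻¹ ψ) fun x => by
        rw [map_inv]
        rfl
      rw [inv_inv] at h2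
      rw [← h2, ← mul_assoc, ← mul_assoc, hi, one_mul]
    have h2 : Q ψ (lam γ (Ω l)) = lam γ (Q (ltr (p γ)⁻¹ ψ) (Ω l)) := by
      change (Q ψ * lam γ) (Ω l) = _
      rw [h1]
      rfl
    have h3 : ∀ ξ, π g⁻¹ (lam γ ξ) = lam γ (π g⁻¹ ξ) := fun ξ => by
      change (π g⁻¹ * lam γ) ξ = (lam γ * π g⁻¹) ξ
      rw [hp.comm]
    have h4 : ∀ ξ, m {1} (lam γ ξ) = lam γ (m {γ⁻¹} ξ) := fun ξ => by
      change (m {1} * lam γ) ξ = (lam γ * m {γ⁻¹}) ξ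
      have h5 : m {γ⁻¹} = lam γ⁻¹ * m {1} * lam γ := by
        have h6 := hm.cov γ⁻¹ {1}
        rw [inv_inv, Set.image_singleton, mul_one] at h6
        exact h6.symm
      rw [h5, ← mul_assoc, ← mul_assoc, hi, one_mul]
    rw [h2, h3, h4, iso_pi hp, iso_lam hp]
  · rw [map_zero, map_zero, map_zero, map_zero, norm_zero]

/-- **the main inequality**: a finite form of the trace over the cosets of the kernel -/
theorem main_le (hp : PicF π lam W Ω) (hm : MsF lam W Ω m) {p : Γ →* T}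
    {Q : C₀(T, ℂ) →⋆ₙₐ[ℂ] (K →L[ℂ] K)} (cm : ∀ ψ, Cm W (Q ψ))
    (cov : ∀ γ (ψ ψ' : C₀(T, ℂ)), (∀ x, ψ' x = ψ ((p γ)⁻¹ * x)) →
      lam γ * Q ψ * lam γ⁻¹ = Q ψ') {g : E} (hg : ∀ ψ, Commute (π g) (Q ψ)) (f : C₀(T, ℂ))
    (P₀ : Finset T) {ε : ℝ}
    (hP : ∀ P : Finset T, (∀ d ∈ P, d ∈ p.range) → Disjoint P P₀ →
      ∑ l, ∑ d ∈ P, ‖Q (ltr d⁻¹ (star f)) (Ω l)‖ ^ 2 ≤ ε) :
    ∑ l, ‖m {γ | p γ ∉ P₀} (π g (Q f (Ω l)))‖ ^ 2 ≤ ε := by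
  classical
  obtain ⟨S', hS'⟩ : ∃ S' : Set Γ, S' = {γ | p γ ∉ P₀} := ⟨_, rfl⟩
  rw [← hS']
  have hε : 0 ≤ ε := by
    have h := hP ∅ (fun d hd => absurd hd (Finset.notMem_empty d)) (Finset.disjoint_empty_left _)
    simpa using h
  have gi : π g * π g⁻¹ = 1 := by rw [← map_mul, mul_inv_cancel, map_one]
  have gi' : π g⁻¹ * π g = 1 := by rw [← map_mul, inv_mul_cancel, map_one]
  -- the operator
  obtain ⟨T₀, hT₀⟩ : ∃ T₀ : K →L[ℂ] K, T₀ = m S' * Q f := ⟨_, rfl⟩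
  have hT₀c : Cm W T₀ := fun w hw => by
    rw [hT₀, mul_assoc, cm f w hw, ← mul_assoc, hm.cm S' w hw, mul_assoc]
  obtain ⟨A, hA⟩ : ∃ A : K →L[ℂ] K, A = π g⁻¹ * T₀ * π g := ⟨_, rfl⟩
  have hconj : ∀ X : K →L[ℂ] K, Cm W X → ∀ g : E, Cm W (π g * X * π g⁻¹) := by
    intro X hX g w hw
    have h1 := hX _ (hp.WP w hw g⁻¹)
    rw [inv_inv] at h1
    have hgi : π g * π g⁻¹ = 1 := by rw [← map_mul, mul_inv_cancel, map_one]
    calc π g * X * π g⁻¹ * w = π g * (X * (π g⁻¹ * w * π g)) * π g⁻¹ := by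
          simp only [mul_assoc]
          rw [hgi, mul_one]
      _ = π g * ((π g⁻¹ * w * π g) * X) * π g⁻¹ := by rw [h1]
      _ = (π g * π g⁻¹) * (w * (π g * X * π g⁻¹)) := by simp only [mul_assoc]
      _ = w * (π g * X * π g⁻¹) := by rw [hgi, one_mul]
  have hAc : Cm W A := by
    have h1 := hconj T₀ hT₀c g⁻¹
    rwa [inv_inv, ← hA] at h1
  have hAm : Cm W (A * m {1}) := fun w hw => by
    rw [mul_assoc, hm.cm {1} w hw, ← mul_assoc, hAc w hw, mul_assoc]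
  have hAmc : Cm W (adjoint (A * m {1})) := fun w hw => by
    have h1 := hAm _ (hp.Wadj w hw)
    have h2 := congrArg adjoint h1
    have h3 : ∀ X Y : K →L[ℂ] K, adjoint (X * Y) = adjoint Y * adjoint X := fun X Y =>
      ContinuousLinearMap.adjoint_comp X Y
    rw [h3 (A * m {1}) (adjoint w), h3 (adjoint w) (A * m {1}),
      ContinuousLinearMap.adjoint_adjoint] at h2
    exact h2.symm
  -- the value of `A`
  have hAv : ∀ l, ‖A (Ω l)‖ = ‖m S' (π g (Q f (Ω l)))‖ := by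
    intro l
    have h1 : A (Ω l) = π g⁻¹ (m S' (π g (Q f (Ω l)))) := by
      have h2 : Q f * π g = π g * Q f := (hg f).symm
      have h3 : A = π g⁻¹ * (m S' * (π g * Q f)) := by
        rw [hA, hT₀, ← h2]
        simp only [mul_assoc]
      rw [h3]
      rfl
    rw [h1, iso_pi hp]
  -- the trace
  have h1 : ∑ l, ‖A (Ω l)‖ₑ ^ 2 ≤ TRNF lam Ω (A * m {1}) := by
    refine Finset.sum_le_sum fun l _ => ?_
    have h2 : ‖A (Ω l)‖ₑ ^ 2 = ‖(A * m {1}) (lam 1 (Ω l))‖ₑ ^ 2 := by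
      rw [map_one]
      change _ = ‖A (m {1} (Ω l))‖ₑ ^ 2
      rw [hm.om l]
    rw [h2]
    exact ENNReal.le_tsum (f := fun γ => ‖(A * m {1}) (lam γ (Ω l))‖ₑ ^ 2) 1
  have h2 : TRNF lam Ω (A * m {1}) =
      TRNF lam Ω (π g * m {1} * π g⁻¹ * (Q (star f) * m S')) := by
    rw [← hp.tr_adj _ hAm, ← hp.tr_conj _ hAmc g]
    congr 1
    have h3 : ∀ X Y : K →L[ℂ] K, adjoint (X * Y) = adjoint Y * adjoint X := fun X Y =>
      ContinuousLinearMap.adjoint_comp X Y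
    rw [h3, hm.adj, hA, hT₀, h3, h3, h3, hm.adj, hp.adjP, hp.adjP, inv_inv, adj_map]
    simp only [mul_assoc]
    rw [gi, mul_one]
  have h3 : TRNF lam Ω (π g * m {1} * π g⁻¹ * (Q (star f) * m S')) ≤ ENNReal.ofReal ε := by
    obtain ⟨X, hX⟩ : ∃ X : K →L[ℂ] K, X = π g * m {1} * π g⁻¹ * (Q (star f) * m S') := ⟨_, rfl⟩
    have e1 : TRNF lam Ω X = ∑' γ, ∑ l, ‖X (lam γ (Ω l))‖ₑ ^ 2 :=
      (Summable.tsum_finsetSum fun l _ => ENNReal.summable).symm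
    rw [← hX, e1, ENNReal.tsum_eq_iSup_sum]
    refine iSup_le fun F => ?_
    have e2 : ∑ γ ∈ F, ∑ l, ‖X (lam γ (Ω l))‖ₑ ^ 2 =
        ENNReal.ofReal (∑ γ ∈ F, ∑ l, ‖X (lam γ (Ω l))‖ ^ 2) := by
      rw [ENNReal.ofReal_sum_of_nonneg fun γ _ => Finset.sum_nonneg fun l _ => sq_nonneg _]
      refine Finset.sum_congr rfl fun γ _ => ?_
      rw [ENNReal.ofReal_sum_of_nonneg fun l _ => sq_nonneg _]
      exact Finset.sum_congr rfl fun l _ => enorm_sq _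
    rw [e2]
    refine ENNReal.ofReal_le_ofReal ?_
    obtain ⟨F', hF'⟩ : ∃ F' : Finset Γ, F' = F.filter (· ∈ S') := ⟨_, rfl⟩
    have e3 : ∑ γ ∈ F, ∑ l, ‖X (lam γ (Ω l))‖ ^ 2 =
        ∑ l, ∑ γ ∈ F', ‖m {γ⁻¹} (π g⁻¹ (Q (ltr (p γ)⁻¹ (star f)) (Ω l)))‖ ^ 2 := by
      rw [Finset.sum_comm]
      refine Finset.sum_congr rfl fun l _ => ?_
      rw [hF', Finset.sum_filter]
      refine Finset.sum_congr rfl fun γ _ => ?_
      rw [hX, term_eq hp hm cov g (star f) S' γ l]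
      split_ifs with h
      · rfl
      · norm_num
    rw [e3]
    have hP' := hP (F'.image p) (fun d hd => by
      obtain ⟨γ, _, rfl⟩ := Finset.mem_image.1 hd
      exact ⟨γ, rfl⟩) (by
      rw [Finset.disjoint_left]
      intro d hd hd'
      obtain ⟨γ, hγ, rfl⟩ := Finset.mem_image.1 hd
      rw [hF', Finset.mem_filter, hS'] at hγ
      exact hγ.2 hd')
    refine le_trans (Finset.sum_le_sum fun l _ => ?_) hP'
    rw [← Finset.sum_fiberwise_of_maps_to (s := F') (t := F'.image p) (g := p)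
      (fun γ hγ => Finset.mem_image_of_mem _ hγ)]
    refine Finset.sum_le_sum fun d _ => ?_
    have e4 : ∑ γ ∈ F'.filter (fun γ => p γ = d),
        ‖m {γ⁻¹} (π g⁻¹ (Q (ltr (p γ)⁻¹ (star f)) (Ω l)))‖ ^ 2 =
        ∑ γ ∈ (F'.filter (fun γ => p γ = d)).image (fun γ => γ⁻¹),
          ‖m {γ} (π g⁻¹ (Q (ltr d⁻¹ (star f)) (Ω l)))‖ ^ 2 := by
      rw [Finset.sum_image fun a _ b _ hab => inv_injective hab]
      refine Finset.sum_congr rfl fun γ hγ => ?_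
      rw [(Finset.mem_filter.1 hγ).2]
    rw [e4]
    refine (bessel hm _ _).trans (le_of_eq ?_)
    rw [iso_pi hp]
  have h4 : ∑ l, ‖A (Ω l)‖ₑ ^ 2 = ENNReal.ofReal (∑ l, ‖m S' (π g (Q f (Ω l)))‖ ^ 2) := by
    rw [ENNReal.ofReal_sum_of_nonneg fun l _ => sq_nonneg _]
    exact Finset.sum_congr rfl fun l _ => by rw [enorm_sq, hAv]
  have h5 : ENNReal.ofReal (∑ l, ‖m S' (π g (Q f (Ω l)))‖ ^ 2) ≤ ENNReal.ofReal ε := by
    rw [← h4]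
    exact h1.trans (h2.le.trans h3)
  exact (ENNReal.ofReal_le_ofReal_iff hε).1 h5

theorem norm_m_le (hm : MsF lam W Ω m) (S : Set Γ) (ξ : K) : ‖m S ξ‖ ≤ ‖ξ‖ := by
  have h1 : ‖m S ξ‖ ^ 2 = ‖⟪m S ξ, ξ⟫_ℂ‖ := by
    rw [← m_sq hm, Complex.norm_real, Real.norm_of_nonneg (sq_nonneg _)]
  have h2 : ‖m S ξ‖ * ‖m S ξ‖ ≤ ‖m S ξ‖ * ‖ξ‖ := by
    rw [← sq, h1]
    exact norm_inner_le_norm _ _
  by_cases h0 : ‖m S ξ‖ = 0
  · rw [h0]
    exact norm_nonneg _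
  · exact le_of_mul_le_mul_left h2 (lt_of_le_of_ne (norm_nonneg _) (Ne.symm h0))

/-- **[MIX] (M4), tightness**: `p` is tight on the elements of the source which commute with `Q`. -/
theorem tight_N [T2Space T] [LocallyCompactSpace T] (hp : PicF π lam W Ω) (hm : MsF lam W Ω m)
    {p : Γ →* T} {Q : C₀(T, ℂ) →⋆ₙₐ[ℂ] (K →L[ℂ] K)} (nd : ∀ ξ, (∀ ψ, Q ψ ξ = 0) → ξ = 0)
    (cm : ∀ ψ, Cm W (Q ψ))
    (cov : ∀ γ (ψ ψ' : C₀(T, ℂ)), (∀ x, ψ' x = ψ ((p γ)⁻¹ * x)) →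
      lam γ * Q ψ * lam γ⁻¹ = Q ψ')
    (hd : ∀ C : Set T, IsCompact C → ((p.range : Set T) ∩ C).Finite) (S : Set E)
    (hS : ∀ g ∈ S, ∀ ψ, Commute (π g) (Q ψ)) (ε : ℝ) (hε : 0 < ε) :
    ∃ C : Set T, IsCompact C ∧ ∀ g ∈ S, ∀ l, ‖m {γ | p γ ∉ C} (π g (Ω l))‖ ≤ ε := by
  classical
  obtain ⟨f, hfs, hf, hcut⟩ := exists_cut nd Ω (half_pos hε)
  have hf' : ∀ x, ‖(star f) x‖ ≤ 1 := fun x => by
    change ‖star (f x)‖ ≤ 1
    rw [norm_star]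
    exact hf x
  have hfs' : HasCompactSupport (star f : C₀(T, ℂ)) := by
    refine hfs.mono fun y hy => ?_
    rw [Function.mem_support] at hy ⊢
    intro h0
    apply hy
    change star (f y) = 0
    rw [h0, star_zero]
  obtain ⟨P₀, hP₀⟩ := exists_tail Q (D := p.range) hf' hfs' hd Ω (ε := (ε / 2) ^ 2)
    (by positivity)
  refine ⟨P₀, P₀.finite_toSet.isCompact, fun g hg l => ?_⟩
  have h1 := main_le hp hm cm cov (hS g hg) f P₀ hP₀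
  have h2 : ‖m {γ | p γ ∉ P₀} (π g (Q f (Ω l)))‖ ≤ ε / 2 := by
    have h3 : ‖m {γ | p γ ∉ P₀} (π g (Q f (Ω l)))‖ ^ 2 ≤ (ε / 2) ^ 2 :=
      (Finset.single_le_sum (f := fun l => ‖m {γ | p γ ∉ P₀} (π g (Q f (Ω l)))‖ ^ 2)
        (fun l _ => sq_nonneg _) (Finset.mem_univ l)).trans h1
    exact (sq_le_sq₀ (norm_nonneg _) (by positivity)).1 h3
  have e1 : (Ω l : K) = (Ω l - Q f (Ω l)) + Q f (Ω l) := by abel
  have h4 : ‖m {γ | p γ ∉ P₀} (π g (Ω l - Q f (Ω l)))‖ ≤ ε / 2 :=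
    (norm_m_le hm _ _).trans (by rw [iso_pi hp]; exact hcut l)
  have e2 : {γ | p γ ∉ (P₀ : Set T)} = {γ | p γ ∉ P₀} := by
    ext γ
    exact not_congr Finset.mem_coe
  rw [e2, e1, map_add, map_add]
  exact (norm_add_le _ _).trans ((add_le_add h4 h2).trans (le_of_eq (add_halves ε)))

/-- **[MIX] (M4)** for a family of places and a size `s₀` of all of them. -/
theorem tight_size {B : Type} [Fintype B] {T : B → Type} [∀ b, Group (T b)]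
    [∀ b, TopologicalSpace (T b)] [∀ b, IsTopologicalGroup (T b)]
    [∀ b, LocallyCompactSpace (T b)] [∀ b, T2Space (T b)] (hp : PicF π lam W Ω)
    (hm : MsF lam W Ω m) {p : ∀ b, Γ →* T b} {Q : ∀ b, C₀(T b, ℂ) →⋆ₙₐ[ℂ] (K →L[ℂ] K)}
    (nd : ∀ b ξ, (∀ ψ, Q b ψ ξ = 0) → ξ = 0) (cm : ∀ b ψ, Cm W (Q b ψ))
    (cov : ∀ b γ (ψ ψ' : C₀(T b, ℂ)), (∀ x, ψ' x = ψ ((p b γ)⁻¹ * x)) →
      lam γ * Q b ψ * lam γ⁻¹ = Q b ψ')
    (com : ∀ b b', b ≠ b' → ∀ ψ φ, Commute (Q b ψ) (Q b' φ))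
    (hd : ∀ C : Set (∀ b, T b), IsCompact C → (((MonoidHom.pi p).range : Set (∀ b, T b)) ∩ C).Finite)
    {s₀ : Γ → ℝ} (hs : ∀ C : Set (∀ b, T b), IsCompact C →
      ∃ R, ∀ γ, (fun b => p b γ) ∈ C → s₀ γ ≤ R) (S : Set E)
    (hS : ∀ g ∈ S, ∀ b ψ, Commute (π g) (Q b ψ)) (ε : ℝ) (hε : 0 < ε) :
    ∃ r : ℝ, ∀ g ∈ S, ∀ l, ‖m {γ | r < s₀ γ} (π g (Ω l))‖ ≤ ε := by
  obtain ⟨QQ, h1, h2, h3⟩ := exists_pi Q nd com
  obtain ⟨C, hC, h4⟩ := tight_N hp hm (p := MonoidHom.pi p) (Q := QQ) h1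
    (fun Ψ w hw => (h2 w (fun b ψ => ((cm b ψ) w hw).symm) Ψ).symm)
    (fun γ Ψ Ψ' hΨ => by
      refine h3 (fun b => Homeomorph.mulLeft (p b γ)⁻¹) (lam γ) (lam γ⁻¹) ?_ ?_ ?_ Ψ Ψ' ?_
      · rw [← map_mul, mul_inv_cancel, map_one]
      · rw [← map_mul, inv_mul_cancel, map_one]
      · intro b ψ ψ' hψ
        exact cov b γ ψ ψ' hψ
      · intro x
        rw [hΨ x]
        rfl)
    hd S (fun g hg Ψ => h2 (π g) (fun b ψ => hS g hg b ψ) Ψ) ε hε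
  obtain ⟨R, hR⟩ := hs C hC
  refine ⟨R, fun g hg l => ?_⟩
  refine (hm.mono ?_ _).trans (h4 g hg l)
  intro γ hγ hγ'
  exact absurd (hR γ hγ') (not_le.2 hγ)

end tight

end Vale.Agent.P092.H943.Mx
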