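import Mathlib
import Vale.Agent.P092.H171.Ext

/-!
P092 (helper943), [P-END]: the joint calculus of finitely many commuting nondegenerate calculi of
`C₀(X i)`, on `C₀` of the product.
-/

set_option linter.all false

namespace Vale.Agent.P092.H943

open Topology TopologicalSpace Filter Set WeakDual WeakDual.CharacterSpace
open scoped InnerProductSpace ComplexConjugate ZeroAtInfty

section SW

variable {ι : Type*} {P : ι → Type*} [∀ i, TopologicalSpace (P i)]

/-- functions of one coordinate -/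
noncomputable def cof (i : ι) (f : C(P i, ℂ)) : C(∀ i, P i, ℂ) :=
  f.comp ⟨fun x => x i, continuous_apply i⟩

@[simp] theorem cof_apply (i : ι) (f : C(P i, ℂ)) (x : ∀ i, P i) : cof i f x = f (x i) := rfl

variable [∀ i, CompactSpace (P i)] [∀ i, T2Space (P i)]

/-- **Stone-Weierstrass induction** on the functions of a product. -/
theorem cof_induction (p : C(∀ i, P i, ℂ) → Prop) (hcl : IsClosed {F | p F})
    (hco : ∀ i f, p (cof i f)) (hcst : ∀ c : ℂ, p (algebraMap ℂ C(∀ i, P i, ℂ) c))
    (hadd : ∀ F G, p F → p G → p (F + G)) (hmul : ∀ F G, p F → p G → p (F * G))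
    (F : C(∀ i, P i, ℂ)) : p F := by
  let s : Set C(∀ i, P i, ℂ) := {F | ∃ i f, F = cof i f}
  let A : StarSubalgebra ℂ C(∀ i, P i, ℂ) :=
    { Algebra.adjoin ℂ s with
      star_mem' := by
        intro a ha
        refine Algebra.adjoin_induction (p := fun a _ => star a ∈ Algebra.adjoin ℂ s)
          ?_ ?_ ?_ ?_ ha
        · rintro x ⟨i, f, rfl⟩
          exact Algebra.subset_adjoin ⟨i, star f, rfl⟩
        · intro r
          rw [← algebraMap_star_comm]
          exact Subalgebra.algebraMap_mem _ _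
        · intro x y _ _ hx hy
          rw [star_add]
          exact add_mem hx hy
        · intro x y _ _ hx hy
          rw [star_mul]
          exact mul_mem hy hx }
  have hA : A.SeparatesPoints := by
    intro x y hxy
    obtain ⟨i, hi⟩ := Function.ne_iff.1 hxy
    obtain ⟨f, hf0, hf1, -⟩ := exists_continuous_zero_one_of_isClosed
      (isClosed_singleton (x := x i)) (isClosed_singleton (x := y i)) (by simpa using hi)
    let g : C(P i, ℂ) := ⟨fun z => ((f z : ℝ) : ℂ), by fun_prop⟩
    refine ⟨cof i g, ⟨cof i g, Algebra.subset_adjoin ⟨i, _, rfl⟩, rfl⟩, ?_⟩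
    have h0 : f (x i) = 0 := hf0 rfl
    have h1 : f (y i) = 1 := hf1 rfl
    simp [g, h0, h1]
  have htop := ContinuousMap.starSubalgebra_topologicalClosure_eq_top_of_separatesPoints A hA
  have hF : F ∈ A.topologicalClosure := by rw [htop]; trivial
  have hF' : F ∈ closure (A : Set C(∀ i, P i, ℂ)) := hF
  refine closure_minimal (s := (A : Set C(∀ i, P i, ℂ))) (t := {F | p F}) ?_ hcl hF'
  intro a ha
  have ha' : a ∈ Algebra.adjoin ℂ s := ha
  refine Algebra.adjoin_induction (p := fun a _ => p a) ?_ ?_ ?_ ?_ ha'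
  · rintro x ⟨i, f, rfl⟩
    exact hco i f
  · exact hcst
  · exact fun x y _ _ hx hy => hadd x y hx hy
  · exact fun x y _ _ hx hy => hmul x y hx hy

variable {K : Type*} [NormedAddCommGroup K] [InnerProductSpace ℂ K] [CompleteSpace K]

theorem cont_hom {X : Type*} [TopologicalSpace X] [CompactSpace X]
    (Φ : C(X, ℂ) →⋆ₐ[ℂ] (K →L[ℂ] K)) : Continuous Φ :=
  (AddMonoidHomClass.continuous_of_bound Φ 1 fun x => by
    rw [one_mul]
    exact NonUnitalStarAlgHom.norm_apply_le Φ x)

/-- conjugated calculi -/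
theorem conj_eq (Φ Ψ : C(∀ i, P i, ℂ) →⋆ₐ[ℂ] (K →L[ℂ] K)) (g : C(∀ i, P i, ∀ i, P i))
    {U V : K →L[ℂ] K} (hUV : U * V = 1) (hVU : V * U = 1)
    (h : ∀ i f, U * Φ (cof i f) * V = Ψ ((cof i f).comp g)) (F : C(∀ i, P i, ℂ)) :
    U * Φ F * V = Ψ (F.comp g) := by
  refine cof_induction (fun F => U * Φ F * V = Ψ (F.comp g)) ?_ h ?_ ?_ ?_ F
  · refine isClosed_eq ?_ ?_
    · exact (continuous_const.mul (cont_hom Φ)).mul continuous_const
    · exact (cont_hom Ψ).comp (ContinuousMap.continuous_precomp g)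
  · intro c
    have e : (algebraMap ℂ C(∀ i, P i, ℂ) c).comp g = algebraMap ℂ C(∀ i, P i, ℂ) c := rfl
    rw [e, AlgHomClass.commutes, AlgHomClass.commutes, Algebra.algebraMap_eq_smul_one,
      mul_smul_comm, mul_one, smul_mul_assoc, hUV]
  · intro F G hF hG
    have e : (F + G).comp g = F.comp g + G.comp g := rfl
    rw [e, map_add, map_add, mul_add, add_mul, hF, hG]
  · intro F G hF hG
    have e : (F * G).comp g = F.comp g * G.comp g := rfl
    rw [e, map_mul, map_mul, ← hF, ← hG]
    calc U * (Φ F * Φ G) * V = U * Φ F * (V * U) * Φ G * V := by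
          rw [hVU]; simp only [mul_assoc, one_mul, mul_one]
      _ = _ := by simp only [mul_assoc]

/-- commutants -/
theorem comm_all (Φ : C(∀ i, P i, ℂ) →⋆ₐ[ℂ] (K →L[ℂ] K)) {T : K →L[ℂ] K}
    (h : ∀ i f, Commute T (Φ (cof i f))) (F : C(∀ i, P i, ℂ)) : Commute T (Φ F) := by
  refine cof_induction (fun F => Commute T (Φ F)) ?_ h ?_ ?_ ?_ F
  · exact isClosed_eq (continuous_const.mul (cont_hom Φ)) ((cont_hom Φ).mul continuous_const)
  · intro c
    rw [AlgHomClass.commutes]
    exact Algebra.commutes' c T |>.symm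
  · intro F G hF hG
    rw [map_add]
    exact hF.add_right hG
  · intro F G hF hG
    rw [map_mul]
    exact hF.mul_right hG

end SW

section gelfand

/-- functions of a point, different factors -/
theorem exists_joint_comm {B : Type*} [CommCStarAlgebra B] {ι : Type*} {P : ι → Type*}
    [∀ i, TopologicalSpace (P i)] [∀ i, CompactSpace (P i)] [∀ i, T2Space (P i)]
    (φ : ∀ i, C(P i, ℂ) →⋆ₐ[ℂ] B) :
    ∃ Φ : C(∀ i, P i, ℂ) →⋆ₐ[ℂ] B, ∀ i f, Φ (cof i f) = φ i f := by
  let y : ∀ i, C(characterSpace ℂ B, P i) := fun i =>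
    ((homeoEval (P i) ℂ).symm : C(characterSpace ℂ C(P i, ℂ), P i)).comp
      (compContinuousMap (φ i))
  have hy : ∀ i f (χ : characterSpace ℂ B), f (y i χ) = χ (φ i f) := by
    intro i f χ
    have h1 : homeoEval (P i) ℂ (y i χ) = compContinuousMap (φ i) χ :=
      (homeoEval (P i) ℂ).apply_symm_apply _
    have h2 := DFunLike.congr_fun h1 f
    exact h2
  let Y : C(characterSpace ℂ B, ∀ i, P i) := ⟨fun χ i => y i χ, by fun_prop⟩
  refine ⟨((gelfandStarTransform B).symm : C(characterSpace ℂ B, ℂ) →⋆ₐ[ℂ] B).comp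
    (Y.compStarAlgHom' ℂ ℂ), fun i f => ?_⟩
  change (gelfandStarTransform B).symm ((cof i f).comp Y) = φ i f
  rw [StarAlgEquiv.symm_apply_eq]
  ext χ
  exact hy i f χ

variable {K : Type*} [NormedAddCommGroup K] [InnerProductSpace ℂ K] [CompleteSpace K]
  {ι : Type*} {P : ι → Type*} [∀ i, TopologicalSpace (P i)] [∀ i, CompactSpace (P i)]
  [∀ i, T2Space (P i)]

theorem exists_joint (φ : ∀ i, C(P i, ℂ) →⋆ₐ[ℂ] (K →L[ℂ] K))
    (hc : ∀ i j f g, Commute (φ i f) (φ j g)) :
    ∃ Φ : C(∀ i, P i, ℂ) →⋆ₐ[ℂ] (K →L[ℂ] K), ∀ i f, Φ (cof i f) = φ i f := by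
  let S : Set (K →L[ℂ] K) := {T | ∃ i f, T = φ i f}
  let C1 : StarSubalgebra ℂ (K →L[ℂ] K) := StarSubalgebra.centralizer ℂ S
  let A : StarSubalgebra ℂ (K →L[ℂ] K) :=
    StarSubalgebra.centralizer ℂ (C1 : Set (K →L[ℂ] K))
  have hS1 : ∀ T ∈ S, T ∈ C1 := by
    rintro T ⟨i, f, rfl⟩
    rw [StarSubalgebra.mem_centralizer_iff]
    rintro _ ⟨j, g, rfl⟩
    refine ⟨hc j i g f, ?_⟩
    rw [← map_star]
    exact hc j i (star g) f
  have hSA : ∀ T ∈ S, T ∈ A := by
    rintro T hT
    rw [StarSubalgebra.mem_centralizer_iff]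
    intro Z hZ
    have h1 := StarSubalgebra.mem_centralizer_iff ℂ |>.1 hZ T hT
    have h2 := StarSubalgebra.mem_centralizer_iff ℂ |>.1 (star_mem hZ) T hT
    exact ⟨h1.1.symm, h2.1.symm⟩
  have hA1 : ∀ T ∈ A, T ∈ C1 := by
    intro T hT
    rw [StarSubalgebra.mem_centralizer_iff]
    intro Z hZ
    exact StarSubalgebra.mem_centralizer_iff ℂ |>.1 hT Z (hS1 Z hZ)
  have hAc : ∀ T ∈ A, ∀ Z ∈ A, T * Z = Z * T := by
    intro T hT Z hZ
    exact (StarSubalgebra.mem_centralizer_iff ℂ |>.1 hZ T (hA1 T hT)).1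
  haveI hcl : IsClosed (A : Set (K →L[ℂ] K)) := Set.isClosed_centralizer _
  letI : CommCStarAlgebra A :=
    { (inferInstance : CStarAlgebra A) with
      mul_comm := fun x y => Subtype.ext (hAc x.1 x.2 y.1 y.2) }
  let φ' : ∀ i, C(P i, ℂ) →⋆ₐ[ℂ] A := fun i =>
    (φ i).codRestrict A fun f => hSA _ ⟨i, f, rfl⟩
  obtain ⟨Φ, hΦ⟩ := exists_joint_comm φ'
  refine ⟨A.subtype.comp Φ, fun i f => ?_⟩
  change A.subtype (Φ (cof i f)) = φ i f
  rw [hΦ]
  rfl

end gelfand

section onepoint

variable {X : Type*} [TopologicalSpace X] [T2Space X]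

theorem tendsto_sub (f : C(OnePoint X, ℂ)) :
    Tendsto (fun x : X => f x - f OnePoint.infty) (cocompact X) (𝓝 0) := by
  have h1 : Tendsto (fun x : X => (x : OnePoint X)) (cocompact X) (𝓝 OnePoint.infty) := by
    have := OnePoint.tendsto_nhds_infty (X := X) (f := fun z : OnePoint X => z)
      (l := 𝓝 OnePoint.infty)
    have h2 := (this.1 tendsto_id)
    have h3 := (OnePoint.tendsto_nhds_infty (X := X) (f := fun z : OnePoint X => z)
      (l := 𝓝 OnePoint.infty)).1 tendsto_id
    have h4 : Tendsto (fun x : X => (x : OnePoint X)) (coclosedCompact X)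
        (𝓝 OnePoint.infty) := by
      rw [OnePoint.nhds_infty_eq]
      exact tendsto_map.mono_right le_sup_left
    rwa [coclosedCompact_eq_cocompact] at h4
  have h2 : Tendsto (fun x : X => f x) (cocompact X) (𝓝 (f OnePoint.infty)) :=
    (f.continuous.tendsto _).comp h1
  have h3 := h2.sub_const (f OnePoint.infty)
  rwa [sub_self] at h3

/-- `f - f ∞` -/
noncomputable def res (f : C(OnePoint X, ℂ)) : C₀(X, ℂ) where
  toFun x := f x - f OnePoint.infty
  continuous_toFun := by
    have := OnePoint.continuous_coe (X := X)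
    fun_prop
  zero_at_infty' := tendsto_sub f

@[simp] theorem res_apply (f : C(OnePoint X, ℂ)) (x : X) : res f x = f x - f OnePoint.infty := rfl

variable {A : Type*} [Ring A] [StarRing A] [Algebra ℂ A] [StarModule ℂ A]

/-- the unital extension -/
noncomputable def uext (Q : C₀(X, ℂ) →⋆ₙₐ[ℂ] A) : C(OnePoint X, ℂ) →⋆ₐ[ℂ] A where
  toFun f := algebraMap ℂ A (f OnePoint.infty) + Q (res f)
  map_one' := by
    have : res (1 : C(OnePoint X, ℂ)) = 0 := by ext x; simp
    rw [this, map_zero, ContinuousMap.one_apply, map_one, add_zero]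
  map_mul' f g := by
    have : res (f * g) = res f * res g + (f OnePoint.infty) • res g
        + (g OnePoint.infty) • res f := by
      ext x
      simp
      ring
    rw [this, map_add, map_add, map_mul, map_smul, map_smul, ContinuousMap.mul_apply, map_mul,
      add_mul, mul_add, mul_add, ← Algebra.smul_def, ← Algebra.smul_def,
      ← Algebra.commutes (g OnePoint.infty) (Q (res f)), ← Algebra.smul_def]
    abel
  map_zero' := by
    have : res (0 : C(OnePoint X, ℂ)) = 0 := by ext x; simp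
    rw [this, map_zero, ContinuousMap.zero_apply, map_zero, add_zero]
  map_add' f g := by
    have : res (f + g) = res f + res g := by ext x; simp; ring
    rw [this, map_add, ContinuousMap.add_apply, map_add]
    abel
  commutes' c := by
    have : res (algebraMap ℂ C(OnePoint X, ℂ) c) = 0 := by ext x; simp
    rw [this, map_zero, add_zero]
    rfl
  map_star' f := by
    have : res (star f) = star (res f) := by ext x; simp
    rw [this, map_star, star_add, ContinuousMap.star_apply, ← algebraMap_star_comm]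

theorem uext_apply (Q : C₀(X, ℂ) →⋆ₙₐ[ℂ] A) (f : C(OnePoint X, ℂ)) :
    uext Q f = algebraMap ℂ A (f OnePoint.infty) + Q (res f) := rfl

end onepoint

end Vale.Agent.P092.H943
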